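import Crest.Agent.R254.Defs
import Crest.Agent.R254.Metric

-- ▼ part R254/Vectors
section

/-! # Row 254, task V: the vectors in the Banach space -/

set_option autoImplicit false

open Set

namespace Crest.Agent.R254

theorem exists_vec (B : Type*) [NormedAddCommGroup B] [NormedSpace ℝ B]
    (h : ¬ FiniteDimensional ℝ B) : Nonempty (Vec B) := by
  have hnt : Nontrivial B := by
    by_contra hn
    rw [not_nontrivial_iff_subsingleton] at hn
    exact h inferInstance
  obtain ⟨e1, he1⟩ := exists_norm_eq B (zero_le_one (α := ℝ))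
  have hproper : ∀ S : Submodule ℝ B, FiniteDimensional ℝ S → ∃ x : B, x ∉ S := by
    intro S hS
    by_contra hcon
    push Not at hcon
    have : S = ⊤ := by
      rw [Submodule.eq_top_iff']; exact hcon
    subst this
    exact h (Module.Finite.equiv (Submodule.topEquiv (R := ℝ) (M := B)))
  -- second vector
  have hF1 : FiniteDimensional ℝ (Submodule.span ℝ {e1}) := inferInstance
  obtain ⟨x0, hx0, hx0'⟩ := riesz_lemma (F := Submodule.span ℝ {e1})
    (Submodule.closed_of_finiteDimensional _) (hproper _ hF1) (r := 1 / 2) (by norm_num)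
  have hx0n : 0 < ‖x0‖ := by
    rw [norm_pos_iff]
    rintro rfl
    exact hx0 (Submodule.zero_mem _)
  set e2 : B := ‖x0‖⁻¹ • x0 with he2def
  have he2 : ‖e2‖ = 1 := by
    rw [he2def, norm_smul, norm_inv, norm_norm, inv_mul_cancel₀ hx0n.ne']
  have hsep1 : ∀ x t : ℝ, |t| / 2 ≤ ‖x • e1 + t • e2‖ := by
    intro x t
    by_cases ht : t = 0
    · subst ht; simp
    have hmem : (-(x / t * ‖x0‖)) • e1 ∈ Submodule.span ℝ {e1} :=
      Submodule.smul_mem _ _ (Submodule.subset_span rfl)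
    have h1 := hx0' _ hmem
    have h2 : x • e1 + t • e2 = (t / ‖x0‖) • (x0 - (-(x / t * ‖x0‖)) • e1) := by
      rw [he2def, smul_sub, smul_smul, smul_smul]
      rw [show t / ‖x0‖ * -(x / t * ‖x0‖) = -x by field_simp]
      rw [neg_smul, sub_neg_eq_add, add_comm, div_eq_mul_inv]
    rw [h2, norm_smul, norm_div, norm_norm, Real.norm_eq_abs]
    calc |t| / 2 = |t| / ‖x0‖ * (1 / 2 * ‖x0‖) := by field_simp
      _ ≤ _ := by gcongr
  have h12 : ∀ x t : ℝ, max |x| |t| ≤ 3 * ‖x • e1 + t • e2‖ := by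
    intro x t
    have h1 := hsep1 x t
    have h2 : |x| ≤ ‖x • e1 + t • e2‖ + |t| := by
      calc |x| = ‖x • e1‖ := by rw [norm_smul, he1, mul_one, Real.norm_eq_abs]
        _ = ‖(x • e1 + t • e2) - t • e2‖ := by rw [add_sub_cancel_right]
        _ ≤ ‖x • e1 + t • e2‖ + ‖t • e2‖ := norm_sub_le _ _
        _ = _ := by rw [norm_smul t e2, he2, mul_one, Real.norm_eq_abs]
    have h3 := norm_nonneg (x • e1 + t • e2)
    exact max_le (by linarith) (by linarith)
  -- the quotient
  set S : Submodule ℝ B := Submodule.span ℝ {e1, e2} with hS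
  have hSfin : FiniteDimensional ℝ S := by
    rw [hS]
    exact FiniteDimensional.span_of_finite ℝ (Set.toFinite _)
  have hSclosed : IsClosed (S : Set B) := Submodule.closed_of_finiteDimensional _
  have := hSclosed
  have hQ : ¬ FiniteDimensional ℝ (B ⧸ S) := by
    intro hq
    exact h (Module.Finite.of_submodule_quotient S)
  obtain ⟨f, hf1, hf2⟩ := exists_seq_norm_le_one_le_norm_sub' (𝕜 := ℝ) (E := B ⧸ S) (c := (2 : ℝ))
    (by norm_num) (R := 3) (by norm_num) hQ
  have hlift : ∀ n, ∃ m : B, Submodule.Quotient.mk m = f n ∧ ‖m‖ < ‖f n‖ + 1 :=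
    fun n => Submodule.Quotient.norm_mk_lt (f n) one_pos
  choose g hg1 hg2 using hlift
  refine ⟨⟨e1, e2, fun a => g a - g 0, he1.le, he2.le, by simp, fun a => ?_, h12, ?_⟩⟩
  · have h1 := hg2 a
    have h2 := hg2 0
    have h3 := hf1 a
    have h4 := hf1 0
    have := norm_sub_le (g a) (g 0)
    linarith
  · intro a b hab x t
    have h1 := hf2 hab
    have h2 : (Submodule.Quotient.mk (x • e1 + t • e2 + (g a - g 0 - (g b - g 0))) : B ⧸ S)
        = f a - f b := by
      have h3 : x • e1 + t • e2 ∈ S := by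
        refine S.add_mem (S.smul_mem _ (Submodule.subset_span (by simp)))
          (S.smul_mem _ (Submodule.subset_span (by simp)))
      rw [sub_sub_sub_cancel_right, Submodule.Quotient.mk_add, (Submodule.Quotient.mk_eq_zero S).2 h3,
        zero_add, Submodule.Quotient.mk_sub, hg1, hg1]
    calc (1 : ℝ) ≤ ‖f a - f b‖ := h1
      _ = ‖(Submodule.Quotient.mk (x • e1 + t • e2 + (g a - g 0 - (g b - g 0))) : B ⧸ S)‖ := by
          rw [h2]
      _ ≤ _ := Submodule.Quotient.norm_mk_le _ _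

end Crest.Agent.R254
end

-- ▼ part R254/Compact
section

/-! # Row 254, task M2: the set `K` is compact. -/

set_option autoImplicit false

open Set

namespace Crest.Agent.R254

namespace CompactAux

variable (P : Par)

theorem M_pos (k : ℕ) : 0 < P.M k := by
  unfold Par.M
  have h1 := P.hm k
  have h2 := P.hβ k
  have h3 := P.hN k
  positivity

theorem M_ge (k : ℕ) : 400 ≤ P.M k := by
  unfold Par.M
  have h1 := P.hm k
  have h2 := P.hβ k
  have h3 := P.hN k
  calc 400 = 2 * 1 * 1 * 200 := by norm_num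
    _ ≤ 2 * P.m k * P.β k * P.N k := by gcongr <;> omega

theorem n_pos (k : ℕ) : 0 < P.n k := Finset.prod_pos fun j _ => M_pos P j

theorem s_pos (k : ℕ) : 0 < P.s k := by
  unfold Par.s
  have : (0 : ℝ) < P.n k := by exact_mod_cast n_pos P k
  positivity

theorem r_pos (k : ℕ) : 0 < P.r k := by
  unfold Par.r
  have := s_pos P (k + 1)
  positivity

theorem s_succ_le (k : ℕ) : P.s (k + 1) ≤ P.s k * (1 / 2) := by
  have h1 : P.n (k + 1) = P.n k * P.M k := by
    unfold Par.n
    rw [Finset.prod_range_succ]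
  have h2 : (0 : ℝ) < P.n k := by exact_mod_cast n_pos P k
  have h3 : (400 : ℝ) ≤ P.M k := by exact_mod_cast M_ge P k
  unfold Par.s
  rw [h1]
  push_cast
  rw [div_mul_div_comm, div_le_div_iff₀ (by positivity) (by positivity)]
  nlinarith

theorem s_le (k : ℕ) : P.s k ≤ (1 / 2) ^ k := by
  induction k with
  | zero => simp [Par.s, Par.n]
  | succ k ih =>
    calc P.s (k + 1) ≤ P.s k * (1 / 2) := s_succ_le P k
      _ ≤ (1 / 2) ^ k * (1 / 2) := by gcongr
      _ = (1 / 2) ^ (k + 1) := by ring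

theorem summable_r : Summable P.r := by
  refine Summable.of_nonneg_of_le (fun k => (r_pos P k).le) (fun k => ?_)
    (summable_geometric_of_lt_one (r := (1 / 2 : ℝ)) (by norm_num) (by norm_num))
  unfold Par.r
  have h1 := s_le P (k + 1)
  have h2 := s_pos P (k + 1)
  have h3 : ((1 : ℝ) / 2) ^ (k + 1) = (1 / 2) ^ k * (1 / 2) := pow_succ _ _
  have h4 : (0 : ℝ) < (1 / 2) ^ k := by positivity
  rw [h3] at h1
  linarith

theorem isClosed_strip {w : ℝ} (hw : 0 < w) {m : ℕ} (hm : 0 < m) (i : ℕ) :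
    IsClosed {t : ℝ | Par.strip w m i t} := by
  have h : {t : ℝ | Par.strip w m i t} =
      ⋃ q : ℕ, Icc (((2 * (m * q + i) : ℕ) : ℝ) * w) (((2 * (m * q + i) + 1 : ℕ) : ℝ) * w) := by
    ext t
    simp only [Par.strip, mem_ofPred_eq, mem_iUnion, mem_Icc]
  rw [h]
  refine LocallyFinite.isClosed_iUnion ?_ (fun q => isClosed_Icc)
  intro x
  refine ⟨Iio (x + 1), Iio_mem_nhds (by linarith), ?_⟩
  obtain ⟨Q, hQ⟩ := exists_nat_gt ((x + 1) / w)
  refine (Set.finite_lt_nat Q).subset ?_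
  rintro q ⟨y, hy1, hy2⟩
  have hy1' := hy1.1
  have hy2' : y < x + 1 := hy2
  have h1 : (q : ℝ) * w ≤ y := by
    refine le_trans ?_ hy1'
    gcongr
    have : 1 * q ≤ m * q := Nat.mul_le_mul_right q hm
    omega
  have h2 : (q : ℝ) < Q := by
    refine lt_trans ?_ hQ
    rw [lt_div_iff₀ hw]
    linarith
  simpa using (by exact_mod_cast h2 : q < Q)

theorem isClosed_A (k : ℕ) :
    IsClosed {z : ℝ × ℝ × (ℕ → ℕ) | P.A k (z.2.2 k) z.1 z.2.1} := by
  have h : {z : ℝ × ℝ × (ℕ → ℕ) | P.A k (z.2.2 k) z.1 z.2.1} =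
      {z | z.2.2 k = 0} ∪ ⋃ i ∈ Finset.range (P.m k),
        ({z | z.2.2 k = i + 1} ∩
          ({z | Par.strip (P.s (k + 1)) (P.m k) i z.2.1} ∪
            {z | Par.strip ((P.β k : ℝ) * P.s (k + 1)) (P.m k) i z.1})) := by
    ext z
    simp only [Par.A, mem_ofPred_eq, mem_union, mem_iUnion, Finset.mem_range, mem_inter_iff,
      exists_prop]
    constructor
    · rintro (h | ⟨i, h1, h2, h3⟩)
      · exact Or.inl h
      · exact Or.inr ⟨i, h2, h1, h3⟩
    · rintro (h | ⟨i, h2, h1, h3⟩)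
      · exact Or.inl h
      · exact Or.inr ⟨i, h1, h2, h3⟩
  have hcont : Continuous (fun z : ℝ × ℝ × (ℕ → ℕ) => z.2.2 k) :=
    (continuous_apply k).comp (continuous_snd.comp continuous_snd)
  have hcl : ∀ c : ℕ, IsClosed {z : ℝ × ℝ × (ℕ → ℕ) | z.2.2 k = c} := fun c =>
    isClosed_eq hcont continuous_const
  rw [h]
  refine (hcl 0).union ?_
  refine Set.Finite.isClosed_biUnion (Finset.finite_toSet _) ?_
  intro i _
  refine (hcl (i + 1)).inter (IsClosed.union ?_ ?_)
  · exact (isClosed_strip (s_pos P (k + 1)) (P.hm k) i).preimage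
      (continuous_fst.comp continuous_snd)
  · have hβ : (0 : ℝ) < P.β k := by exact_mod_cast P.hβ k
    exact (isClosed_strip (mul_pos hβ (s_pos P (k + 1))) (P.hm k) i).preimage continuous_fst

end CompactAux

section

variable {B : Type*} [NormedAddCommGroup B] [NormedSpace ℝ B] [CompleteSpace B]
  (P : Par) (V : Vec B)

theorem continuous_pt :
    Continuous (fun z : ℝ × ℝ × (ℕ → ℕ) => pt P V z.1 z.2.1 z.2.2) := by
  unfold pt Phi
  refine Continuous.add (by fun_prop) ?_
  refine continuous_tsum (u := fun k => 8 * P.r k) (fun k => ?_)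
    ((CompactAux.summable_r P).mul_left 8) (fun k z => ?_)
  · have h1 : Continuous (fun c : ℕ => P.r k • V.W c) := continuous_of_discreteTopology
    exact h1.comp ((continuous_apply k).comp (continuous_snd.comp continuous_snd))
  · rw [norm_smul, Real.norm_of_nonneg (CompactAux.r_pos P k).le, mul_comm]
    exact mul_le_mul_of_nonneg_right (V.hW _) (CompactAux.r_pos P k).le

/-- TASK M2. -/
theorem isCompact_K : IsCompact (K P V) := by
  set C : Set (ℝ × ℝ × (ℕ → ℕ)) :=
    {z | z.1 ∈ Icc (0 : ℝ) 1 ∧ z.2.1 ∈ Icc (0 : ℝ) 1 ∧ ∀ k, P.A k (z.2.2 k) z.1 z.2.1} with hC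
  have hCc : IsCompact C := by
    have h1 : IsCompact (Icc (0 : ℝ) 1 ×ˢ (Icc (0 : ℝ) 1 ×ˢ
        Set.pi univ (fun k : ℕ => {c : ℕ | c ≤ P.m k}))) :=
      isCompact_Icc.prod (isCompact_Icc.prod
        (isCompact_univ_pi fun k => (Set.finite_le_nat (P.m k)).isCompact))
    refine h1.of_isClosed_subset ?_ ?_
    · have : C = ({z | z.1 ∈ Icc (0 : ℝ) 1} ∩ {z | z.2.1 ∈ Icc (0 : ℝ) 1}) ∩
          ⋂ k, {z | P.A k (z.2.2 k) z.1 z.2.1} := by
        ext z
        simp only [hC, mem_ofPred_eq, mem_inter_iff, mem_iInter, and_assoc]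
      rw [this]
      refine IsClosed.inter (IsClosed.inter ?_ ?_) (isClosed_iInter fun k => ?_)
      · exact isClosed_Icc.preimage continuous_fst
      · exact isClosed_Icc.preimage (continuous_fst.comp continuous_snd)
      · exact CompactAux.isClosed_A P k
    · rintro ⟨x, t, ζ⟩ ⟨hx, ht, hζ⟩
      refine ⟨hx, ht, ?_⟩
      intro k _
      rcases hζ k with h | ⟨i, h1, h2, _⟩
      · have h' : ζ k = 0 := h
        show ζ k ≤ P.m k
        omega
      · have h' : ζ k = i + 1 := h1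
        show ζ k ≤ P.m k
        omega
  have hK : K P V = (fun z : ℝ × ℝ × (ℕ → ℕ) => pt P V z.1 z.2.1 z.2.2) '' C := by
    ext p
    constructor
    · rintro ⟨x, t, ζ, hx, ht, hζ, rfl⟩
      exact ⟨(x, t, ζ), ⟨hx, ht, hζ⟩, rfl⟩
    · rintro ⟨⟨x, t, ζ⟩, ⟨hx, ht, hζ⟩, rfl⟩
      exact ⟨x, t, ζ, hx, ht, hζ, rfl⟩
  rw [hK]
  exact hCc.image (continuous_pt P V)

end

end Crest.Agent.R254
end

-- ▼ part R254/Doubling

/-! # Row 254, task M3: the set `K` is doubling with a universal constant -/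

set_option autoImplicit false

open Set Finset Module

namespace Crest.Agent.R254

/-- at most one index of a family of strips of width `w` is visible in an interval of length
less than `w` -/
theorem strip_unique {w : ℝ} (hw : 0 < w) {m i i' : ℕ} (hi : i < m) (hi' : i' < m) {t t' : ℝ}
    (h : Par.strip w m i t) (h' : Par.strip w m i' t') (hd : |t - t'| < w) : i = i' := by
  obtain ⟨q, h1, h2⟩ := h
  obtain ⟨q', h1', h2'⟩ := h'
  rw [abs_lt] at hd
  have e1 : m * q + i ≤ m * q' + i' := by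
    have : ((2 * (m * q + i) : ℕ) : ℝ) * w < ((2 * (m * q' + i') + 1 + 1 : ℕ) : ℝ) * w := by
      have : ((2 * (m * q' + i') + 1 + 1 : ℕ) : ℝ) * w
          = ((2 * (m * q' + i') + 1 : ℕ) : ℝ) * w + w := by push_cast; ring
      rw [this]
      linarith
    have := lt_of_mul_lt_mul_right this hw.le
    have := Nat.cast_lt.1 this
    omega
  have e2 : m * q' + i' ≤ m * q + i := by
    have : ((2 * (m * q' + i') : ℕ) : ℝ) * w < ((2 * (m * q + i) + 1 + 1 : ℕ) : ℝ) * w := by
      have : ((2 * (m * q + i) + 1 + 1 : ℕ) : ℝ) * w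
          = ((2 * (m * q + i) + 1 : ℕ) : ℝ) * w + w := by push_cast; ring
      rw [this]
      linarith
    have := lt_of_mul_lt_mul_right this hw.le
    have := Nat.cast_lt.1 this
    omega
  have e3 : m * q + i = m * q' + i' := le_antisymm e1 e2
  have e4 := congrArg (· % m) e3
  simp only [Nat.mul_add_mod, Nat.mod_eq_of_lt hi, Nat.mod_eq_of_lt hi'] at e4
  exact e4

/-- covering by classes -/
theorem exists_cover_of_class {X : Type*} [PseudoMetricSpace X] {S T : Set X} (hT : T ⊆ S)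
    {ι : Type*} (I : Finset ι) (cls : X → ι) (h1 : ∀ p ∈ T, cls p ∈ I) {r : ℝ}
    (h2 : ∀ p ∈ T, ∀ q ∈ T, cls p = cls q → dist p q ≤ r) :
    ∃ C : Finset X, (↑C : Set X) ⊆ S ∧ C.card ≤ I.card ∧ T ⊆ ⋃ c ∈ C, Metric.closedBall c r := by
  classical
  by_cases hne : Nonempty X
  · let rep : ι → X := fun i => if h : ∃ p, p ∈ T ∧ cls p = i then Classical.choose h
      else Classical.choice hne
    have hrep : ∀ p ∈ T, rep (cls p) ∈ T ∧ cls (rep (cls p)) = cls p := by
      intro p hp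
      have hex : ∃ q, q ∈ T ∧ cls q = cls p := ⟨p, hp, rfl⟩
      have : rep (cls p) = Classical.choose hex := dif_pos hex
      rw [this]
      exact Classical.choose_spec hex
    refine ⟨(I.filter fun i => ∃ p, p ∈ T ∧ cls p = i).image rep, ?_, ?_, ?_⟩
    · intro x hx
      rw [Finset.mem_coe, Finset.mem_image] at hx
      obtain ⟨i, hi, rfl⟩ := hx
      obtain ⟨p, hp, rfl⟩ := (Finset.mem_filter.1 hi).2
      exact hT (hrep p hp).1
    · exact Finset.card_image_le.trans (Finset.card_filter_le _ _)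
    · intro p hp
      simp only [Set.mem_iUnion]
      refine ⟨rep (cls p), Finset.mem_image_of_mem _ (Finset.mem_filter.2 ⟨h1 p hp, p, hp, rfl⟩), ?_⟩
      exact h2 p hp _ (hrep p hp).1 (hrep p hp).2.symm
  · refine ⟨∅, by simp, by simp, ?_⟩
    intro p _
    exact absurd ⟨p⟩ hne

theorem abs_sub_lt_of_floor_eq {a b c h : ℝ} (hh : 0 < h)
    (he : ⌊(a - c) / h⌋ = ⌊(b - c) / h⌋) : |a - b| < h := by
  have h1 := Int.abs_sub_lt_one_of_floor_eq_floor he
  have : (a - c) / h - (b - c) / h = (a - b) / h := by ring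
  rw [this, abs_div, abs_of_pos hh, div_lt_one hh] at h1
  exact h1

section metric
variable {B : Type*} [NormedAddCommGroup B] [NormedSpace ℝ B] [CompleteSpace B]
  (P : Par) (V : Vec B)

theorem doubling_K :
    Crest.GeometryTopology.DoublingConstLE (K P V) 10000000 := by
  classical
  intro p0 hp0 R hR
  obtain ⟨x0, t0, ζ0, hx0, ht0, hA0, rfl⟩ := hp0
  -- coordinates of the points of `K`
  have hrep : ∀ p : B, ∃ a : ℝ × ℝ × (ℕ → ℕ), p ∈ K P V →
      a.1 ∈ Icc (0 : ℝ) 1 ∧ a.2.1 ∈ Icc (0 : ℝ) 1 ∧ (∀ k, P.A k (a.2.2 k) a.1 a.2.1) ∧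
        p = pt P V a.1 a.2.1 a.2.2 := by
    intro p
    by_cases hp : p ∈ K P V
    · obtain ⟨x, t, ζ, h1, h2, h3, h4⟩ := hp
      exact ⟨(x, t, ζ), fun _ => ⟨h1, h2, h3, h4⟩⟩
    · exact ⟨(0, 0, fun _ => 0), fun h => absurd h hp⟩
  choose co hco using hrep
  set T : Set B := K P V ∩ Metric.closedBall (pt P V x0 t0 ζ0) (2 * R) with hTdef
  have hdist : ∀ p ∈ T, ‖pt P V (co p).1 (co p).2.1 (co p).2.2 - pt P V x0 t0 ζ0‖ ≤ 2 * R := by
    intro p hp
    rw [← (hco p hp.1).2.2.2, ← dist_eq_norm]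
    exact hp.2
  have hcoord : ∀ p ∈ T, |(co p).1 - x0| ≤ 210 * R ∧ |(co p).2.1 - t0| ≤ 210 * R := by
    intro p hp
    have h1 := coord_le_dist P V (co p).2.2 ζ0 (co p).1 (co p).2.1 x0 t0
    have h2 := hdist p hp
    constructor
    · exact (le_max_left _ _).trans (h1.trans (by linarith))
    · exact (le_max_right _ _).trans (h1.trans (by linarith))
  -- the scale
  have hex : ∃ k, 34 * P.r k ≤ R := by
    have h1 : ∀ᶠ k in Filter.atTop, P.r k < R / 34 :=
      P.tendsto_r.eventually (gt_mem_nhds (by positivity))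
    obtain ⟨k, hk⟩ := h1.exists
    exact ⟨k, by linarith⟩
  set k := Nat.find hex with hk
  have hkR : 34 * P.r k ≤ R := Nat.find_spec hex
  -- labels below level `k - 1` agree
  have hlow : ∀ p ∈ T, ∀ j, j + 1 < k → (co p).2.2 j = ζ0 j := by
    intro p hp j hj
    by_contra hne
    have hex2 : ∃ j, (co p).2.2 j ≠ ζ0 j := ⟨j, hne⟩
    have h1 := r_le_dist P V (ζ := (co p).2.2) (ζ' := ζ0) (k := Nat.find hex2)
      (fun i hi => by
        have := Nat.find_min hex2 hi
        exact not_not.1 this) (Nat.find_spec hex2) (co p).1 (co p).2.1 x0 t0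
    have h2 := hdist p hp
    have h3 : Nat.find hex2 ≤ j := Nat.find_min' hex2 hne
    have h4 : ¬ 34 * P.r (k - 1) ≤ R := Nat.find_min hex (by omega)
    have h5 := P.r_lt_of_lt (show Nat.find hex2 < k - 1 by omega)
    have h6 := P.r_pos (k - 1)
    push Not at h4
    linarith
  -- the labels at level `k - 1`
  have hlab : ∃ Lb : Finset ℕ, Lb.card ≤ 3 ∧
      ∀ p ∈ T, (if k = 0 then 0 else (co p).2.2 (k - 1)) ∈ Lb := by
    by_cases hk0 : k = 0
    · refine ⟨{0}, by simp, ?_⟩
      intro p _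
      rw [if_pos hk0]
      simp
    · have h4 : ¬ 34 * P.r (k - 1) ≤ R := Nat.find_min hex (by omega)
      push Not at h4
      have hkk : k - 1 + 1 = k := by omega
      have hu : P.r (k - 1) = P.s k / 20000 := by
        rw [Par.r, hkk]
      have hs := P.s_pos k
      have hβ : (1 : ℝ) ≤ (P.β (k - 1) : ℝ) := by exact_mod_cast P.hβ (k - 1)
      have hβs : P.s k ≤ (P.β (k - 1) : ℝ) * P.s k := le_mul_of_one_le_left hs.le hβ
      have hRs : 420 * R < P.s k := by
        rw [hu] at h4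
        linarith
      have habs : ∀ {a b c : ℝ}, |a - c| ≤ 210 * R → |b - c| ≤ 210 * R → |a - b| < P.s k := by
        intro a b c h1 h2
        have : |a - b| ≤ |a - c| + |b - c| := by
          have : a - b = (a - c) - (b - c) := by ring
          rw [this]
          exact abs_sub _ _
        linarith
      -- the label visible through the horizontal strips
      have hct : ∃ ct : ℕ, ∀ p ∈ T, ∀ i, i < P.m (k - 1) →
          Par.strip (P.s k) (P.m (k - 1)) i (co p).2.1 → i + 1 = ct := by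
        by_cases h : ∃ p ∈ T, ∃ i, i < P.m (k - 1) ∧
          Par.strip (P.s k) (P.m (k - 1)) i (co p).2.1
        · obtain ⟨p, hp, i, hi, hst⟩ := h
          refine ⟨i + 1, fun q hq j hj hst' => ?_⟩
          rw [strip_unique hs hj hi hst' hst (habs (hcoord q hq).2 (hcoord p hp).2)]
        · refine ⟨0, fun q hq j hj hst' => absurd ⟨q, hq, j, hj, hst'⟩ h⟩
      have hcx : ∃ cx : ℕ, ∀ p ∈ T, ∀ i, i < P.m (k - 1) →
          Par.strip ((P.β (k - 1) : ℝ) * P.s k) (P.m (k - 1)) i (co p).1 → i + 1 = cx := by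
        by_cases h : ∃ p ∈ T, ∃ i, i < P.m (k - 1) ∧
          Par.strip ((P.β (k - 1) : ℝ) * P.s k) (P.m (k - 1)) i (co p).1
        · obtain ⟨p, hp, i, hi, hst⟩ := h
          refine ⟨i + 1, fun q hq j hj hst' => ?_⟩
          rw [strip_unique (lt_of_lt_of_le hs hβs) hj hi hst' hst
            (lt_of_lt_of_le (habs (hcoord q hq).1 (hcoord p hp).1) hβs)]
        · refine ⟨0, fun q hq j hj hst' => absurd ⟨q, hq, j, hj, hst'⟩ h⟩
      obtain ⟨ct, hct⟩ := hct
      obtain ⟨cx, hcx⟩ := hcx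
      refine ⟨{0, ct, cx}, Finset.card_le_three, ?_⟩
      intro p hp
      rw [if_neg hk0]
      have hA := (hco p hp.1).2.2.1 (k - 1)
      simp only [Finset.mem_insert, Finset.mem_singleton]
      rcases hA with h0 | ⟨i, hci, hi, hst⟩
      · exact Or.inl h0
      · rw [hkk] at hst
        right
        rw [hci]
        rcases hst with hst | hst
        · exact Or.inl (hct p hp i hi hst)
        · exact Or.inr (hcx p hp i hi hst)
  obtain ⟨Lb, hLb3, hLb⟩ := hlab
  have hR4 : 0 < R / 4 := by positivity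
  obtain ⟨J, hJ⟩ : ∃ J : Finset ℤ, J = Finset.Icc (-840 : ℤ) 840 := ⟨_, rfl⟩
  suffices hsuff : ∃ C : Finset B, (↑C : Set B) ⊆ K P V ∧
      C.card ≤ (Lb ×ˢ (J ×ˢ J)).card ∧
      T ⊆ ⋃ c ∈ C, Metric.closedBall c R by
    obtain ⟨C, hC1, hC2, hC3⟩ := hsuff
    refine ⟨C, hC1, hC2.trans ?_, hC3⟩
    rw [Finset.card_product, Finset.card_product]
    have : J.card = 1681 := by rw [hJ]; simp
    rw [this]
    calc Lb.card * (1681 * 1681) ≤ 3 * (1681 * 1681) := Nat.mul_le_mul_right _ hLb3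
      _ ≤ 10000000 := by norm_num
  refine exists_cover_of_class (S := K P V) (T := T) Set.inter_subset_left
    (Lb ×ˢ (J ×ˢ J))
    (fun p => (if k = 0 then 0 else (co p).2.2 (k - 1),
      ⌊((co p).1 - x0) / (R / 4)⌋, ⌊((co p).2.1 - t0) / (R / 4)⌋))
    (r := R) ?_ ?_
  · intro p hp
    have hfl : ∀ a : ℝ, |a| ≤ 210 * R → ⌊a / (R / 4)⌋ ∈ J := by
      intro a ha
      rw [abs_le] at ha
      rw [hJ, Finset.mem_Icc]
      constructor
      · rw [Int.le_floor, le_div_iff₀ hR4]
        push_cast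
        linarith [ha.1]
      · have h1 : a / (R / 4) ≤ 840 := by
          rw [div_le_iff₀ hR4]
          linarith [ha.2]
        have h2 : (⌊a / (R / 4)⌋ : ℝ) ≤ 840 := (Int.floor_le _).trans h1
        exact_mod_cast h2
    exact Finset.mem_product.2 ⟨hLb p hp, Finset.mem_product.2
      ⟨hfl _ (hcoord p hp).1, hfl _ (hcoord p hp).2⟩⟩
  · intro p hp q hq hpq
    simp only [Prod.mk.injEq] at hpq
    obtain ⟨h1, h2, h3⟩ := hpq
    have hx := abs_sub_lt_of_floor_eq hR4 h2
    have ht := abs_sub_lt_of_floor_eq hR4 h3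
    have hlabs : ∀ j, j < k → (co p).2.2 j = (co q).2.2 j := by
      intro j hj
      by_cases hjk : j + 1 < k
      · rw [hlow p hp j hjk, hlow q hq j hjk]
      · have hj' : j = k - 1 := by omega
        have hk0 : k ≠ 0 := by omega
        rw [if_neg hk0, if_neg hk0] at h1
        rw [hj']
        exact h1
    have hPhi := norm_Phi_sub_le P V hlabs
    rw [dist_eq_norm]
    conv_lhs => rw [(hco p hp.1).2.2.2, (hco q hq.1).2.2.2]
    have e : pt P V (co p).1 (co p).2.1 (co p).2.2 - pt P V (co q).1 (co q).2.1 (co q).2.2 =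
        ((co p).1 - (co q).1) • V.e1 + ((co p).2.1 - (co q).2.1) • V.e2 +
          (Phi P V (co p).2.2 - Phi P V (co q).2.2) := by
      simp only [pt, sub_smul]
      abel
    rw [e]
    have n1 : ‖((co p).1 - (co q).1) • V.e1‖ ≤ R / 4 := by
      rw [norm_smul, Real.norm_eq_abs]
      calc |(co p).1 - (co q).1| * ‖V.e1‖ ≤ |(co p).1 - (co q).1| * 1 :=
            mul_le_mul_of_nonneg_left V.he1 (abs_nonneg _)
        _ ≤ R / 4 := by rw [mul_one]; exact hx.le
    have n2 : ‖((co p).2.1 - (co q).2.1) • V.e2‖ ≤ R / 4 := by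
      rw [norm_smul, Real.norm_eq_abs]
      calc |(co p).2.1 - (co q).2.1| * ‖V.e2‖ ≤ |(co p).2.1 - (co q).2.1| * 1 :=
            mul_le_mul_of_nonneg_left V.he2 (abs_nonneg _)
        _ ≤ R / 4 := by rw [mul_one]; exact ht.le
    calc ‖((co p).1 - (co q).1) • V.e1 + ((co p).2.1 - (co q).2.1) • V.e2 +
          (Phi P V (co p).2.2 - Phi P V (co q).2.2)‖
        ≤ ‖((co p).1 - (co q).1) • V.e1‖ + ‖((co p).2.1 - (co q).2.1) • V.e2‖ +
          ‖Phi P V (co p).2.2 - Phi P V (co q).2.2‖ := norm_add₃_le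
      _ ≤ R := by linarith

end metric

end Crest.Agent.R254
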