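import Crest.Agent.R254.Metric
import Crest.Agent.R254.Defs
import Mathlib
import Crest.Agent.R254.Target

-- ▼ part R254/GoodLemmas
section

/-!
# Row 254, Task G: good squares
-/

set_option autoImplicit false

open Set Finset Module

namespace Crest.Agent.R254

theorem Phi_zero {B : Type*} [NormedAddCommGroup B] [NormedSpace ℝ B] (P : Par) (V : Vec B) :
    Phi P V (fun _ => 0) = 0 := by
  unfold Phi
  simp [V.hW0]

section good
variable {B : Type*} [NormedAddCommGroup B] [NormedSpace ℝ B] [CompleteSpace B]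
  (P : Par) (V : Vec B)

theorem Phi_update (ζ : ℕ → ℕ) (k c : ℕ) (hk : ζ k = 0) :
    Phi P V (Function.update ζ k c) = Phi P V ζ + P.r k • V.W c := by
  have h := Phi_sub_Phi P V (Function.update ζ k c) ζ
  rw [tsum_eq_single k] at h
  · rw [Function.update_self, hk, V.hW0, sub_zero] at h
    rw [← h]
    abel
  · intro j hj
    rw [Function.update_of_ne hj, sub_self, smul_zero]

omit [CompleteSpace B] in
theorem good_zero : Good P V 0 (0 : B) := by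
  refine ⟨fun _ => 0, 0, 0, fun _ _ => rfl, ?_, ?_, ?_, ?_⟩
  · rw [P.n_zero]
  · rw [P.n_zero]
  · unfold pt
    rw [Phi_zero]
    simp
  · intro j hj
    exact absurd hj (Nat.not_lt_zero j)

theorem Par.n_mul_s (k : ℕ) : (P.n k : ℝ) * P.s k = 1 := by
  have h : (0 : ℝ) < P.n k := by exact_mod_cast P.n_pos k
  unfold Par.s
  field_simp

theorem Par.mul_s_mem {k a : ℕ} (ha : a + 1 ≤ P.n k) : (a : ℝ) * P.s k ∈ Icc (0 : ℝ) 1 := by
  have hs := P.s_pos k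
  have h1 := P.n_mul_s k
  refine ⟨by positivity, ?_⟩
  rw [← h1]
  have : (a : ℝ) ≤ P.n k := by exact_mod_cast (Nat.le_of_succ_le ha)
  exact mul_le_mul_of_nonneg_right this hs.le

omit [CompleteSpace B] in
theorem Good.mem {k : ℕ} {p : B} (h : Good P V k p) : p ∈ K P V := by
  obtain ⟨ζ, a, b, h0, ha, hb, hp, hA⟩ := h
  have hs := P.s_pos k
  refine ⟨(a : ℝ) * P.s k, (b : ℝ) * P.s k, ζ, P.mul_s_mem ha, P.mul_s_mem hb, ?_, hp⟩
  intro j
  rcases lt_or_ge j k with hj | hj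
  · refine hA j hj _ ⟨le_rfl, ?_⟩ _ ⟨le_rfl, ?_⟩ <;> nlinarith
  · exact Or.inl (h0 j hj)

omit [CompleteSpace B] in
theorem Good.sub {k l c : ℕ} {p : B} (h : Good P V k p) (hkl : k ≤ l)
    (hc : P.n l = P.n k * c) {a b : ℕ} (ha : a < c) (hb : b < c) :
    Good P V l (p + ((a : ℝ) * P.s l) • V.e1 + ((b : ℝ) * P.s l) • V.e2) := by
  obtain ⟨ζ, a0, b0, h0, ha0, hb0, hp, hA⟩ := h
  have hsk := P.s_pos k
  have hsl := P.s_pos l
  have hkc := P.s_eq_mul hc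
  have hbound : ∀ {a0 a : ℕ}, a0 + 1 ≤ P.n k → a < c → a0 * c + a + 1 ≤ P.n l := by
    intro a0 a ha0 ha
    rw [hc]
    calc a0 * c + a + 1 ≤ a0 * c + c := by omega
      _ = (a0 + 1) * c := by ring
      _ ≤ P.n k * c := Nat.mul_le_mul_right _ ha0
  have hcell : ∀ {a0 a : ℕ} {x : ℝ}, a < c →
      x ∈ Icc (((a0 * c + a : ℕ) : ℝ) * P.s l) ((((a0 * c + a : ℕ) : ℝ) + 1) * P.s l) →
      x ∈ Icc ((a0 : ℝ) * P.s k) (((a0 : ℝ) + 1) * P.s k) := by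
    intro a0 a x ha hx
    have hac : ((a : ℝ) + 1) ≤ c := by exact_mod_cast ha
    have ha' : (0 : ℝ) ≤ a := by positivity
    rw [hkc]
    push_cast at hx
    obtain ⟨h1, h2⟩ := hx
    constructor
    · nlinarith
    · nlinarith
  refine ⟨ζ, a0 * c + a, b0 * c + b, fun j hj => h0 j (hkl.trans hj), hbound ha0 ha,
    hbound hb0 hb, ?_, ?_⟩
  · rw [hp]
    unfold pt
    push_cast
    rw [hkc, add_mul, add_mul, add_smul, add_smul, mul_assoc, mul_assoc]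
    abel
  · intro j hj x hx t ht
    rcases lt_or_ge j k with hjk | hjk
    · exact hA j hjk x (hcell ha hx) t (hcell hb ht)
    · exact Or.inl (h0 j hjk)

theorem Good.disp_aux {k l U : ℕ} {p : B} (h : Good P V k p) (hkl : k < l)
    (hU : P.n l = P.n (k + 1) * U) {c a b : ℕ}
    (ha : a < P.M k * U) (hb : b < P.M k * U)
    (hA' : ∀ a0 b0 : ℕ,
      ∀ x ∈ Icc ((a0 : ℝ) * P.s k + (a : ℝ) * P.s l) ((a0 : ℝ) * P.s k + ((a : ℝ) + 1) * P.s l),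
      ∀ t ∈ Icc ((b0 : ℝ) * P.s k + (b : ℝ) * P.s l) ((b0 : ℝ) * P.s k + ((b : ℝ) + 1) * P.s l),
        P.A k c x t) :
    Good P V l (p + P.r k • V.W c + ((a : ℝ) * P.s l) • V.e1 + ((b : ℝ) * P.s l) • V.e2) := by
  obtain ⟨ζ, a0, b0, h0, ha0, hb0, hp, hA⟩ := h
  have hsk := P.s_pos k
  have hsl := P.s_pos l
  have hc : P.n l = P.n k * (P.M k * U) := by rw [hU, P.n_succ]; ring
  have hkc := P.s_eq_mul hc
  generalize hC : P.M k * U = C at *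
  have hbound : ∀ {a0 a : ℕ}, a0 + 1 ≤ P.n k → a < C → a0 * C + a + 1 ≤ P.n l := by
    intro a0 a ha0 ha
    rw [hc]
    calc a0 * C + a + 1 ≤ a0 * C + C := by omega
      _ = (a0 + 1) * C := by ring
      _ ≤ P.n k * C := Nat.mul_le_mul_right _ ha0
  have hcell : ∀ {a0 a : ℕ} {x : ℝ}, a < C →
      x ∈ Icc (((a0 * C + a : ℕ) : ℝ) * P.s l) ((((a0 * C + a : ℕ) : ℝ) + 1) * P.s l) →
      x ∈ Icc ((a0 : ℝ) * P.s k) (((a0 : ℝ) + 1) * P.s k) ∧
      x ∈ Icc ((a0 : ℝ) * P.s k + (a : ℝ) * P.s l)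
        ((a0 : ℝ) * P.s k + ((a : ℝ) + 1) * P.s l) := by
    intro a0 a x ha hx
    have hac : ((a : ℝ) + 1) ≤ C := by exact_mod_cast ha
    have ha' : (0 : ℝ) ≤ a := by positivity
    rw [hkc]
    push_cast at hx
    obtain ⟨h1, h2⟩ := hx
    refine ⟨⟨?_, ?_⟩, ⟨?_, ?_⟩⟩ <;> nlinarith
  refine ⟨Function.update ζ k c, a0 * C + a, b0 * C + b, ?_, hbound ha0 ha,
    hbound hb0 hb, ?_, ?_⟩
  · intro j hj
    rw [Function.update_of_ne (by omega), h0 j (by omega)]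
  · rw [hp]
    unfold pt
    rw [Phi_update P V ζ k c (h0 k le_rfl)]
    push_cast
    rw [hkc, add_mul, add_mul, add_smul, add_smul, mul_assoc, mul_assoc]
    abel
  · intro j hj x hx t ht
    have hx' := hcell ha hx
    have ht' := hcell hb ht
    rcases lt_trichotomy j k with hjk | hjk | hjk
    · rw [Function.update_of_ne hjk.ne]
      exact hA j hjk x hx'.1 t ht'.1
    · subst hjk
      rw [Function.update_self]
      exact hA' a0 b0 x hx'.2 t ht'.2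
    · rw [Function.update_of_ne hjk.ne', h0 j hjk.le]
      exact Or.inl rfl

/-- displaced copies over horizontal strips -/
theorem Good.dispH {k l U : ℕ} {p : B} (h : Good P V k p) (hkl : k < l)
    (hU : P.n l = P.n (k + 1) * U) {i : ℕ} (hi : i < P.m k)
    {a g o : ℕ} (ha : a < P.M k * U) (ho : o < U)
    (hb : 2 * (P.m k * g + i) * U + o < P.M k * U) :
    Good P V l (p + P.r k • V.W (i + 1) + ((a : ℝ) * P.s l) • V.e1 +
      (((2 * (P.m k * g + i) * U + o : ℕ) : ℝ) * P.s l) • V.e2) := by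
  refine Good.disp_aux P V h hkl hU ha hb ?_
  intro a0 b0 x _ t ht
  refine Or.inr ⟨i, rfl, hi, Or.inl ⟨b0 * P.β k * P.N k + g, ?_⟩⟩
  have hsl := P.s_pos l
  have h1 := P.s_eq_mul hU
  have h2 := P.s_succ k
  have ho' : (o : ℝ) + 1 ≤ U := by exact_mod_cast ho
  have ho'' : (0 : ℝ) ≤ o := by positivity
  rw [h2, h1] at ht
  rw [h1]
  unfold Par.M at ht
  push_cast at ht ⊢
  obtain ⟨ht1, ht2⟩ := ht
  have e1 : (2 * ((P.m k : ℝ) * (b0 * P.β k * P.N k + g) + i)) * (U * P.s l) =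
      b0 * (2 * P.m k * P.β k * P.N k * (U * P.s l)) + (2 * (P.m k * g + i) * U) * P.s l := by
    ring
  have h3 : (o : ℝ) * P.s l ≥ 0 := by positivity
  have h4 : ((o : ℝ) + 1) * P.s l ≤ U * P.s l := mul_le_mul_of_nonneg_right ho' hsl.le
  constructor
  · rw [e1]
    linarith [ht1]
  · rw [add_mul, e1]
    linarith [ht2]

/-- displaced copies over vertical strips -/
theorem Good.dispV {k l U : ℕ} {p : B} (h : Good P V k p) (hkl : k < l)
    (hU : P.n l = P.n (k + 1) * U) {i : ℕ} (hi : i < P.m k)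
    {q o b : ℕ} (ho : o < P.β k * U)
    (ha : 2 * (P.m k * q + i) * (P.β k * U) + o < P.M k * U) (hb : b < P.M k * U) :
    Good P V l (p + P.r k • V.W (i + 1) +
      (((2 * (P.m k * q + i) * (P.β k * U) + o : ℕ) : ℝ) * P.s l) • V.e1 +
      ((b : ℝ) * P.s l) • V.e2) := by
  refine Good.disp_aux P V h hkl hU ha hb ?_
  intro a0 b0 x hx t _
  refine Or.inr ⟨i, rfl, hi, Or.inr ⟨a0 * P.N k + q, ?_⟩⟩
  have hsl := P.s_pos l
  have h1 := P.s_eq_mul hU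
  have h2 := P.s_succ k
  have ho' : (o : ℝ) + 1 ≤ P.β k * U := by exact_mod_cast ho
  have ho'' : (0 : ℝ) ≤ o := by positivity
  rw [h2, h1] at hx
  rw [h1]
  unfold Par.M at hx
  push_cast at hx ⊢
  obtain ⟨hx1, hx2⟩ := hx
  have e1 : (2 * ((P.m k : ℝ) * (a0 * P.N k + q) + i)) * (P.β k * (U * P.s l)) =
      a0 * (2 * P.m k * P.β k * P.N k * (U * P.s l)) +
        (2 * (P.m k * q + i) * (P.β k * U)) * P.s l := by
    ring
  have h3 : (o : ℝ) * P.s l ≥ 0 := by positivity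
  have h4 : ((o : ℝ) + 1) * P.s l ≤ P.β k * U * P.s l := mul_le_mul_of_nonneg_right ho' hsl.le
  constructor
  · rw [e1]
    linarith [hx1]
  · rw [add_mul, e1]
    linarith [hx2]

end good

end Crest.Agent.R254
end

-- ▼ part R254/Avg
section

/-! # Row 254, task A: averaged slopes -/

set_option autoImplicit false

open Set Finset Module

namespace Crest.Agent.R254

section avg
variable {B : Type*} [NormedAddCommGroup B] [NormedSpace ℝ B]
  {E : Type*} [NormedAddCommGroup E] [NormedSpace ℝ E] [CompleteSpace E]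

omit [NormedSpace ℝ B] [NormedSpace ℝ E] [CompleteSpace E] in
theorem continuous_of_bound {F : B → E} {D : ℝ} (hF : ∀ x y, ‖F x - F y‖ ≤ D * ‖x - y‖) :
    Continuous F := by
  have : LipschitzWith (Real.toNNReal D) F := by
    apply LipschitzWith.of_dist_le_mul
    intro x y
    rw [dist_eq_norm, dist_eq_norm]
    exact (hF x y).trans (mul_le_mul_of_nonneg_right (Real.le_coe_toNNReal D) (norm_nonneg _))
  exact this.continuous

theorem norm_avg_le {F : B → E} {D : ℝ} (hD : 0 ≤ D) (hF : ∀ x y, ‖F x - F y‖ ≤ D * ‖x - y‖)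
    {e e' : B} (he : ‖e‖ ≤ 1) (p : B) {s : ℝ} (hs : 0 < s) :
    ‖avg F e e' p s‖ ≤ D := by
  have hc := continuous_of_bound hF
  unfold avg
  have h1 : IntervalIntegrable (fun t : ℝ => F (p + s • e + t • e')) MeasureTheory.volume 0 s :=
    (by fun_prop : Continuous fun t : ℝ => F (p + s • e + t • e')).intervalIntegrable _ _
  have h2 : IntervalIntegrable (fun t : ℝ => F (p + t • e')) MeasureTheory.volume 0 s :=
    (by fun_prop : Continuous fun t : ℝ => F (p + t • e')).intervalIntegrable _ _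
  rw [← intervalIntegral.integral_sub h1 h2, norm_smul]
  have h3 : ‖∫ t in (0 : ℝ)..s, (F (p + s • e + t • e') - F (p + t • e'))‖ ≤ D * s * |s - 0| := by
    apply intervalIntegral.norm_integral_le_of_norm_le_const
    intro t _
    refine (hF _ _).trans ?_
    have : p + s • e + t • e' - (p + t • e') = s • e := by abel
    rw [this, norm_smul, Real.norm_eq_abs, abs_of_pos hs]
    apply mul_le_mul_of_nonneg_left _ hD
    exact mul_le_of_le_one_right hs.le he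
  rw [sub_zero, abs_of_pos hs] at h3
  rw [Real.norm_eq_abs, abs_of_pos (by positivity)]
  calc (s ^ 2)⁻¹ * ‖∫ t in (0 : ℝ)..s, (F (p + s • e + t • e') - F (p + t • e'))‖
      ≤ (s ^ 2)⁻¹ * (D * s * s) := mul_le_mul_of_nonneg_left h3 (by positivity)
    _ = D := by field_simp

omit [CompleteSpace E] in
theorem integral_split {g : ℝ → E} (hg : Continuous g) (σ : ℝ) (n : ℕ) :
    ∫ t in (0 : ℝ)..((n : ℝ) * σ), g t = ∑ b ∈ range n, ∫ t in (0 : ℝ)..σ, g ((b : ℝ) * σ + t) := by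
  have h := intervalIntegral.sum_integral_adjacent_intervals (f := g) (μ := MeasureTheory.volume)
    (a := fun k : ℕ => (k : ℝ) * σ) (n := n) (fun k _ => hg.intervalIntegrable _ _)
  simp only [Nat.cast_zero, zero_mul] at h
  rw [← h]
  apply Finset.sum_congr rfl
  intro b _
  rw [intervalIntegral.integral_comp_add_left (fun t => g t) ((b : ℝ) * σ), add_zero]
  congr 1
  push_cast
  ring

/-- scaled edge average (`F` averaged over the edge `[p, p + σ e']`, divided by `σ`) -/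
noncomputable def edge (F : B → E) (e' p : B) (σ : ℝ) : E :=
  (σ ^ 2)⁻¹ • ∫ t in (0 : ℝ)..σ, F (p + t • e')

omit [CompleteSpace E] in
theorem avg_eq_edge (F : B → E) (e e' p : B) (σ : ℝ) :
    avg F e e' p σ = edge F e' (p + σ • e) σ - edge F e' p σ := by
  unfold avg edge
  rw [smul_sub]

/-- martingale property -/
theorem avg_mul {F : B → E} {D : ℝ} (hF : ∀ x y, ‖F x - F y‖ ≤ D * ‖x - y‖)
    (e e' p : B) {σ : ℝ} (hσ : 0 < σ) {n : ℕ} (hn : 0 < n) :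
    ((n : ℝ) ^ 2) • avg F e e' p ((n : ℝ) * σ) =
      ∑ a ∈ range n, ∑ b ∈ range n, avg F e e' (p + ((a : ℝ) * σ) • e + ((b : ℝ) * σ) • e') σ := by
  have hc := continuous_of_bound hF
  set H : ℕ → E := fun a => ∫ t in (0 : ℝ)..((n : ℝ) * σ), F (p + ((a : ℝ) * σ) • e + t • e') with hH
  have h1 : ∀ a : ℕ, H a = ∑ b ∈ range n,
      ∫ t in (0 : ℝ)..σ, F (p + ((a : ℝ) * σ) • e + ((b : ℝ) * σ) • e' + t • e') := by
    intro a
    rw [hH]
    simp only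
    rw [integral_split (by fun_prop : Continuous fun t : ℝ => F (p + ((a : ℝ) * σ) • e + t • e'))]
    apply Finset.sum_congr rfl
    intro b _
    congr 1
    funext t
    rw [add_smul]
    congr 1
    abel
  have h2 : ∀ a : ℕ, ∑ b ∈ range n,
      avg F e e' (p + ((a : ℝ) * σ) • e + ((b : ℝ) * σ) • e') σ = (σ ^ 2)⁻¹ • (H (a + 1) - H a) := by
    intro a
    rw [h1, h1, ← Finset.sum_sub_distrib, Finset.smul_sum]
    apply Finset.sum_congr rfl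
    intro b _
    unfold avg
    congr 3
    funext t
    congr 1
    push_cast
    rw [add_mul, one_mul, add_smul]
    abel
  simp only [h2]
  rw [← Finset.smul_sum, Finset.sum_range_sub]
  unfold avg
  rw [smul_smul]
  have h3 : (n : ℝ) ^ 2 * (((n : ℝ) * σ) ^ 2)⁻¹ = (σ ^ 2)⁻¹ := by
    have : (n : ℝ) ≠ 0 := by exact_mod_cast hn.ne'
    have := hσ.ne'
    field_simp
  rw [h3, hH]
  simp only [Nat.cast_zero, zero_mul, zero_smul, add_zero]

theorem norm_edge_sub_le {F : B → E} {D : ℝ} (hF : ∀ x y, ‖F x - F y‖ ≤ D * ‖x - y‖)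
    (e' p q : B) {σ : ℝ} (hσ : 0 < σ) :
    ‖edge F e' p σ - edge F e' q σ‖ ≤ D * ‖p - q‖ / σ := by
  have hc := continuous_of_bound hF
  unfold edge
  have h1 : IntervalIntegrable (fun t : ℝ => F (p + t • e')) MeasureTheory.volume 0 σ :=
    (by fun_prop : Continuous fun t : ℝ => F (p + t • e')).intervalIntegrable _ _
  have h2 : IntervalIntegrable (fun t : ℝ => F (q + t • e')) MeasureTheory.volume 0 σ :=
    (by fun_prop : Continuous fun t : ℝ => F (q + t • e')).intervalIntegrable _ _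
  rw [← smul_sub, ← intervalIntegral.integral_sub h1 h2, norm_smul]
  have h3 : ‖∫ t in (0 : ℝ)..σ, (F (p + t • e') - F (q + t • e'))‖ ≤ D * ‖p - q‖ * |σ - 0| := by
    apply intervalIntegral.norm_integral_le_of_norm_le_const
    intro t _
    refine (hF _ _).trans (le_of_eq ?_)
    congr 2
    abel
  rw [sub_zero, abs_of_pos hσ] at h3
  rw [Real.norm_eq_abs, abs_of_pos (by positivity)]
  calc (σ ^ 2)⁻¹ * ‖∫ t in (0 : ℝ)..σ, (F (p + t • e') - F (q + t • e'))‖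
      ≤ (σ ^ 2)⁻¹ * (D * ‖p - q‖ * σ) := mul_le_mul_of_nonneg_left h3 (by positivity)
    _ = D * ‖p - q‖ / σ := by field_simp

theorem norm_edge_sub_value_le {F : B → E} {D : ℝ} (hD : 0 ≤ D)
    (hF : ∀ x y, ‖F x - F y‖ ≤ D * ‖x - y‖)
    {e' : B} (he' : ‖e'‖ ≤ 1) (p : B) {σ : ℝ} (hσ : 0 < σ) :
    ‖edge F e' p σ - σ⁻¹ • F p‖ ≤ D := by
  have hc := continuous_of_bound hF
  unfold edge
  have h1 : IntervalIntegrable (fun t : ℝ => F (p + t • e')) MeasureTheory.volume 0 σ :=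
    (by fun_prop : Continuous fun t : ℝ => F (p + t • e')).intervalIntegrable _ _
  have h2 : IntervalIntegrable (fun _ : ℝ => F p) MeasureTheory.volume 0 σ :=
    continuous_const.intervalIntegrable _ _
  have h4 : σ⁻¹ • F p = (σ ^ 2)⁻¹ • ∫ _ in (0 : ℝ)..σ, F p := by
    rw [intervalIntegral.integral_const, sub_zero, smul_smul]
    congr 1
    field_simp
  rw [h4, ← smul_sub, ← intervalIntegral.integral_sub h1 h2, norm_smul]
  have h3 : ‖∫ t in (0 : ℝ)..σ, (F (p + t • e') - F p)‖ ≤ D * σ * |σ - 0| := by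
    apply intervalIntegral.norm_integral_le_of_norm_le_const
    intro t ht
    rw [Set.uIoc_of_le hσ.le] at ht
    refine (hF _ _).trans ?_
    rw [add_sub_cancel_left, norm_smul, Real.norm_eq_abs, abs_of_pos ht.1]
    apply mul_le_mul_of_nonneg_left _ hD
    calc t * ‖e'‖ ≤ t * 1 := mul_le_mul_of_nonneg_left he' ht.1.le
      _ = t := mul_one _
      _ ≤ σ := ht.2
  rw [sub_zero, abs_of_pos hσ] at h3
  rw [Real.norm_eq_abs, abs_of_pos (by positivity)]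
  calc (σ ^ 2)⁻¹ * ‖∫ t in (0 : ℝ)..σ, (F (p + t • e') - F p)‖
      ≤ (σ ^ 2)⁻¹ * (D * σ * σ) := mul_le_mul_of_nonneg_left h3 (by positivity)
    _ = D := by field_simp

end avg

end Crest.Agent.R254
end

-- ▼ part R254/Grid
section

/-!
# Row 254: the discrete lemma

Abstract averaging lemmas in an inner product space and the discrete lemma about functions on a
grid together with displaced copies.
-/

set_option autoImplicit false

open Finset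

namespace Crest.Agent.R254

section AL

variable {ι : Type*} {E : Type*} [NormedAddCommGroup E] [InnerProductSpace ℝ E]

omit [InnerProductSpace ℝ E] in
lemma sum_norm_le_of_sq {S : Finset ι} {x : ι → E} {ε : ℝ} (hε : 0 ≤ ε)
    (h : ∑ s ∈ S, ‖x s‖ ^ 2 ≤ (#S : ℝ) * ε) : ∑ s ∈ S, ‖x s‖ ≤ (#S : ℝ) * √ε := by
  have h1 := sq_sum_le_card_mul_sum_sq (s := S) (f := fun s => ‖x s‖)
  have hS : (0 : ℝ) ≤ (#S : ℝ) := by positivity
  have h2 : (∑ s ∈ S, ‖x s‖) ^ 2 ≤ ((#S : ℝ) * √ε) ^ 2 := by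
    rw [mul_pow, Real.sq_sqrt hε]
    calc (∑ s ∈ S, ‖x s‖) ^ 2 ≤ (#S : ℝ) * ∑ s ∈ S, ‖x s‖ ^ 2 := h1
      _ ≤ (#S : ℝ) * ((#S : ℝ) * ε) := mul_le_mul_of_nonneg_left h hS
      _ = (#S : ℝ) ^ 2 * ε := by ring
  exact le_of_sq_le_sq h2 (by positivity)

lemma sum_sub_eq {S : Finset ι} (w : ι → E) (V : E) :
    ∑ s ∈ S, inner ℝ (w s - V) V = inner ℝ (∑ s ∈ S, (w s - V)) V := by
  rw [sum_inner]

lemma var_le {S : Finset ι} {w : ι → E} {V : E} {D κ τ : ℝ} (hV : ‖V‖ ≤ D)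
    (h1 : ‖∑ s ∈ S, (w s - V)‖ ≤ (#S : ℝ) * τ)
    (h2 : ∑ s ∈ S, ‖w s‖ ^ 2 ≤ (#S : ℝ) * (‖V‖ ^ 2 + κ)) :
    ∑ s ∈ S, ‖w s - V‖ ^ 2 ≤ (#S : ℝ) * (κ + 2 * D * τ) := by
  have h3 : ∑ s ∈ S, ‖w s - V‖ ^ 2
      = ∑ s ∈ S, ‖w s‖ ^ 2 - (#S : ℝ) * ‖V‖ ^ 2 - 2 * inner ℝ (∑ s ∈ S, (w s - V)) V := by
    rw [← sum_sub_eq, mul_sum, ← nsmul_eq_mul, ← Finset.sum_const, ← Finset.sum_sub_distrib,
      ← Finset.sum_sub_distrib]
    refine Finset.sum_congr rfl fun s _ => ?_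
    rw [inner_sub_left, real_inner_self_eq_norm_sq, norm_sub_sq_real]
    ring
  have h4 : |inner ℝ (∑ s ∈ S, (w s - V)) V| ≤ ((#S : ℝ) * τ) * D :=
    (abs_real_inner_le_norm _ _).trans (mul_le_mul h1 hV (norm_nonneg _)
      ((norm_nonneg _).trans h1))
  have h5 := neg_abs_le (inner ℝ (∑ s ∈ S, (w s - V)) V)
  rw [h3]
  nlinarith

lemma bad_le {S : Finset ι} {w : ι → E} {V : E} {D κ τ η : ℝ} (hV : ‖V‖ ≤ D) (hκ : 0 ≤ κ)
    (h1 : ‖∑ s ∈ S, (w s - V)‖ ≤ (#S : ℝ) * τ)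
    (h2 : ∀ s ∈ S, ‖w s‖ ^ 2 ≤ ‖V‖ ^ 2 + κ) :
    η * (#(S.filter fun s => ¬ (‖V‖ ^ 2 - η ≤ ‖w s‖ ^ 2)) : ℝ) ≤ (#S : ℝ) * (κ + 2 * D * τ) := by
  have h4 : |inner ℝ (∑ s ∈ S, (w s - V)) V| ≤ ((#S : ℝ) * τ) * D :=
    (abs_real_inner_le_norm _ _).trans (mul_le_mul h1 hV (norm_nonneg _)
      ((norm_nonneg _).trans h1))
  have h5 := neg_abs_le (inner ℝ (∑ s ∈ S, (w s - V)) V)
  have h6 : ∑ s ∈ S, (‖V‖ ^ 2 + κ - ‖w s‖ ^ 2) ≤ (#S : ℝ) * (κ + 2 * D * τ) := by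
    have h7 : ∑ s ∈ S, (‖V‖ ^ 2 + κ - ‖w s‖ ^ 2) ≤ ∑ s ∈ S, (κ - 2 * inner ℝ (w s - V) V) := by
      refine Finset.sum_le_sum fun s _ => ?_
      have h8 := norm_sub_sq_real (w s) V
      rw [inner_sub_left, real_inner_self_eq_norm_sq]
      nlinarith [sq_nonneg ‖w s - V‖]
    have h8 : ∑ s ∈ S, (κ - 2 * inner ℝ (w s - V) V) =
        (#S : ℝ) * κ - 2 * inner ℝ (∑ s ∈ S, (w s - V)) V := by
      rw [Finset.sum_sub_distrib, ← mul_sum, sum_sub_eq, Finset.sum_const, nsmul_eq_mul]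
    rw [h8] at h7
    nlinarith
  refine le_trans ?_ h6
  calc η * (#(S.filter fun s => ¬ (‖V‖ ^ 2 - η ≤ ‖w s‖ ^ 2)) : ℝ)
      = ∑ s ∈ S.filter (fun s => ¬ (‖V‖ ^ 2 - η ≤ ‖w s‖ ^ 2)), η := by
        rw [Finset.sum_const, nsmul_eq_mul, mul_comm]
    _ ≤ ∑ s ∈ S.filter (fun s => ¬ (‖V‖ ^ 2 - η ≤ ‖w s‖ ^ 2)), (‖V‖ ^ 2 + κ - ‖w s‖ ^ 2) := by
        refine Finset.sum_le_sum fun s hs => ?_
        have := (Finset.mem_filter.1 hs).2
        linarith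
    _ ≤ ∑ s ∈ S, (‖V‖ ^ 2 + κ - ‖w s‖ ^ 2) := by
        refine Finset.sum_le_sum_of_subset_of_nonneg (Finset.filter_subset _ _) fun s hs _ => ?_
        have := h2 s hs
        linarith

/-- the second direction: variance from the energy bound -/
lemma second {S : Finset ι} {w1 w2 : ι → E} {V1 V2 : E} {D κ1 κ2 τ1 τ2 η : ℝ}
    (hV1 : ‖V1‖ ≤ D) (hV2 : ‖V2‖ ≤ D) (hκ1 : 0 ≤ κ1) (hκ2 : 0 ≤ κ2) (hη : 0 < η)
    (h1 : ‖∑ s ∈ S, (w1 s - V1)‖ ≤ (#S : ℝ) * τ1)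
    (h2 : ∀ s ∈ S, ‖w1 s‖ ^ 2 ≤ ‖V1‖ ^ 2 + κ1)
    (h3 : ‖∑ s ∈ S, (w2 s - V2)‖ ≤ (#S : ℝ) * τ2)
    (h4 : ∀ s ∈ S, ‖w2 s‖ ≤ D)
    (h5 : ∀ s ∈ S, ‖V1‖ ^ 2 - η ≤ ‖w1 s‖ ^ 2 → ‖w2 s‖ ^ 2 ≤ ‖V2‖ ^ 2 + κ2) :
    ∑ s ∈ S, ‖w2 s - V2‖ ^ 2 ≤
      (#S : ℝ) * (κ2 + D ^ 2 * (κ1 + 2 * D * τ1) / η + 2 * D * τ2) := by
  refine var_le hV2 h3 ?_
  have hb := bad_le (η := η) hV1 hκ1 h1 h2
  have hb' : (#(S.filter fun s => ¬ (‖V1‖ ^ 2 - η ≤ ‖w1 s‖ ^ 2)) : ℝ) ≤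
      (#S : ℝ) * (κ1 + 2 * D * τ1) / η := by
    rw [le_div_iff₀ hη]; linarith
  rw [← Finset.sum_filter_add_sum_filter_not S (fun s => ‖V1‖ ^ 2 - η ≤ ‖w1 s‖ ^ 2)]
  have hg : ∑ s ∈ S.filter (fun s => ‖V1‖ ^ 2 - η ≤ ‖w1 s‖ ^ 2), ‖w2 s‖ ^ 2 ≤
      (#S : ℝ) * (‖V2‖ ^ 2 + κ2) := by
    calc ∑ s ∈ S.filter (fun s => ‖V1‖ ^ 2 - η ≤ ‖w1 s‖ ^ 2), ‖w2 s‖ ^ 2
        ≤ ∑ s ∈ S.filter (fun s => ‖V1‖ ^ 2 - η ≤ ‖w1 s‖ ^ 2), (‖V2‖ ^ 2 + κ2) := by
          refine Finset.sum_le_sum fun s hs => ?_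
          exact h5 s (Finset.mem_filter.1 hs).1 (Finset.mem_filter.1 hs).2
      _ ≤ ∑ s ∈ S, (‖V2‖ ^ 2 + κ2) :=
          Finset.sum_le_sum_of_subset_of_nonneg (Finset.filter_subset _ _) fun s _ _ => by
            positivity
      _ = (#S : ℝ) * (‖V2‖ ^ 2 + κ2) := by rw [Finset.sum_const, nsmul_eq_mul]
  have hbd : ∑ s ∈ S.filter (fun s => ¬ (‖V1‖ ^ 2 - η ≤ ‖w1 s‖ ^ 2)), ‖w2 s‖ ^ 2 ≤
      D ^ 2 * ((#S : ℝ) * (κ1 + 2 * D * τ1) / η) := by
    calc ∑ s ∈ S.filter (fun s => ¬ (‖V1‖ ^ 2 - η ≤ ‖w1 s‖ ^ 2)), ‖w2 s‖ ^ 2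
        ≤ ∑ s ∈ S.filter (fun s => ¬ (‖V1‖ ^ 2 - η ≤ ‖w1 s‖ ^ 2)), D ^ 2 := by
          refine Finset.sum_le_sum fun s hs => ?_
          exact pow_le_pow_left₀ (norm_nonneg _) (h4 s (Finset.mem_filter.1 hs).1) 2
      _ = D ^ 2 * (#(S.filter fun s => ¬ (‖V1‖ ^ 2 - η ≤ ‖w1 s‖ ^ 2)) : ℝ) := by
          rw [Finset.sum_const, nsmul_eq_mul, mul_comm]
      _ ≤ D ^ 2 * ((#S : ℝ) * (κ1 + 2 * D * τ1) / η) :=
          mul_le_mul_of_nonneg_left hb' (by positivity)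
  calc _ ≤ (#S : ℝ) * (‖V2‖ ^ 2 + κ2) + D ^ 2 * ((#S : ℝ) * (κ1 + 2 * D * τ1) / η) :=
        add_le_add hg hbd
    _ = _ := by ring

omit [InnerProductSpace ℝ E] in
/-- transfer of the average to displaced copies -/
lemma rel_avg {S : Finset ι} {v w : ι → E} {V : E} {ε ρ : ℝ} (hε : 0 ≤ ε)
    (h1 : ∑ s ∈ S, ‖v s - V‖ ^ 2 ≤ (#S : ℝ) * ε)
    (h2 : ‖∑ s ∈ S, (w s - v s)‖ ≤ (#S : ℝ) * ρ) :
    ‖∑ s ∈ S, (w s - V)‖ ≤ (#S : ℝ) * (ρ + √ε) := by
  have h3 : ∑ s ∈ S, (w s - V) = ∑ s ∈ S, (w s - v s) + ∑ s ∈ S, (v s - V) := by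
    rw [← Finset.sum_add_distrib]
    exact Finset.sum_congr rfl fun s _ => by abel
  have h4 := sum_norm_le_of_sq hε h1
  calc ‖∑ s ∈ S, (w s - V)‖ ≤ ‖∑ s ∈ S, (w s - v s)‖ + ‖∑ s ∈ S, (v s - V)‖ := by
        rw [h3]; exact norm_add_le _ _
    _ ≤ (#S : ℝ) * ρ + (#S : ℝ) * √ε :=
        add_le_add h2 ((norm_sum_le _ _).trans h4)
    _ = _ := by ring

omit [InnerProductSpace ℝ E] in
lemma rel_l1 {S : Finset ι} {v w : ι → E} {V : E} {ε ε' : ℝ} (hε : 0 ≤ ε) (hε' : 0 ≤ ε')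
    (h1 : ∑ s ∈ S, ‖v s - V‖ ^ 2 ≤ (#S : ℝ) * ε)
    (h2 : ∑ s ∈ S, ‖w s - V‖ ^ 2 ≤ (#S : ℝ) * ε') :
    ∑ s ∈ S, ‖w s - v s‖ ≤ (#S : ℝ) * (√ε' + √ε) := by
  have h3 := sum_norm_le_of_sq hε h1
  have h4 := sum_norm_le_of_sq hε' h2
  calc ∑ s ∈ S, ‖w s - v s‖ ≤ ∑ s ∈ S, (‖w s - V‖ + ‖v s - V‖) := by
        refine Finset.sum_le_sum fun s _ => ?_
        calc ‖w s - v s‖ = ‖(w s - V) - (v s - V)‖ := by congr 1; abel
          _ ≤ _ := norm_sub_le _ _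
    _ = ∑ s ∈ S, ‖w s - V‖ + ∑ s ∈ S, ‖v s - V‖ := Finset.sum_add_distrib
    _ ≤ _ := by linarith

end AL

section blocks

variable {M : Type*} [AddCommMonoid M]

lemma sum_range_mul (A w : ℕ) (f : ℕ → M) :
    ∑ x ∈ range (A * w), f x = ∑ q ∈ range A, ∑ o ∈ range w, f (q * w + o) := by
  induction A with
  | zero => simp
  | succ A ih => rw [Nat.succ_mul, Finset.sum_range_add, ih, Finset.sum_range_succ]

/-- a family of strips of width `w` -/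
lemma strips_le {f : ℕ → ℝ} (hf : ∀ x, 0 ≤ f x) {m N w i : ℕ} (hi : i < m) :
    ∑ q ∈ range N, ∑ o ∈ range w, f (2 * (m * q + i) * w + o) ≤
      ∑ x ∈ range (2 * m * N * w), f x := by
  have h1 : 2 * m * N * w = N * (2 * m) * w := by ring
  rw [h1, sum_range_mul, sum_range_mul N (2 * m)]
  refine Finset.sum_le_sum fun q _ => ?_
  have h2 : ∑ o ∈ range w, f (2 * (m * q + i) * w + o) =
      (fun c => ∑ o ∈ range w, f ((q * (2 * m) + c) * w + o)) (2 * i) := by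
    refine Finset.sum_congr rfl fun o _ => ?_
    congr 1; ring
  rw [h2]
  exact Finset.single_le_sum (f := fun c => ∑ o ∈ range w, f ((q * (2 * m) + c) * w + o))
    (fun c _ => Finset.sum_nonneg fun o _ => hf _) (Finset.mem_range.2 (by omega))

end blocks

section regions

variable {E : Type*} [NormedAddCommGroup E] [InnerProductSpace ℝ E]

omit [InnerProductSpace ℝ E] in
lemma norm_telescope_le {G : ℕ → E} {R : ℝ} (hG : ∀ a, ‖G a‖ ≤ R) (c w : ℕ) :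
    ‖∑ o ∈ range w, (G (c + o + 1) - G (c + o))‖ ≤ 2 * R := by
  have h := Finset.sum_range_sub (fun o => G (c + o)) w
  have h' : ∑ o ∈ range w, (G (c + o + 1) - G (c + o)) = G (c + w) - G (c + 0) := by
    rw [← h]; rfl
  rw [h']
  calc ‖G (c + w) - G (c + 0)‖ ≤ ‖G (c + w)‖ + ‖G (c + 0)‖ := norm_sub_le _ _
    _ ≤ 2 * R := by linarith [hG (c + w), hG (c + 0)]

lemma regionV {D κ1 κ2 η R ε2 ε3 τ1 τ2 : ℝ} {m N w n i : ℕ}
    (hi : i < m) (hN : 0 < N) (hw : 0 < w) (hn : n = 2 * m * N * w)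
    (hκ1 : 0 ≤ κ1) (hκ2 : 0 ≤ κ2) (hη : 0 < η) (hε2 : 0 ≤ ε2) (hD : 0 ≤ D)
    {g1 g2 h1 h2 : ℕ → ℕ → E} {V1 V2 : E} (hV1 : ‖V1‖ ≤ D) (hV2 : ‖V2‖ ≤ D)
    (hh2 : ∀ a b, ‖h2 a (b + 1) - h2 a b‖ ≤ D)
    (hd1 : ∀ a b, ‖h1 a b - g1 a b‖ ≤ R) (hd2 : ∀ a b, ‖h2 a b - g2 a b‖ ≤ R)
    (hb1 : ∑ a ∈ range n, ∑ b ∈ range n, ‖(g1 (a + 1) b - g1 a b) - V1‖ ^ 2 ≤ (n : ℝ) ^ 2 * κ1)
    (hb2 : ∑ a ∈ range n, ∑ b ∈ range n, ‖(g2 a (b + 1) - g2 a b) - V2‖ ^ 2 ≤ (n : ℝ) ^ 2 * ε2)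
    (hAV : ∀ q < N, ∀ o < w, ∀ b < n,
      ‖h1 (2 * (m * q + i) * w + o + 1) b - h1 (2 * (m * q + i) * w + o) b‖ ^ 2 ≤ ‖V1‖ ^ 2 + κ1)
    (hBV : ∀ q < N, ∀ o < w, ∀ b < n,
      ‖V1‖ ^ 2 - η ≤ ‖h1 (2 * (m * q + i) * w + o + 1) b - h1 (2 * (m * q + i) * w + o) b‖ ^ 2 →
      ‖h2 (2 * (m * q + i) * w + o) (b + 1) - h2 (2 * (m * q + i) * w + o) b‖ ^ 2
        ≤ ‖V2‖ ^ 2 + κ2)
    (hτ1 : 2 * R / w + √(2 * m * κ1) ≤ τ1) (hτ2 : 2 * R / n + √(2 * m * ε2) ≤ τ2)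
    (hε3 : κ2 + D ^ 2 * (κ1 + 2 * D * τ1) / η + 2 * D * τ2 ≤ ε3) :
    ∑ q ∈ range N, ∑ o ∈ range w, ∑ b ∈ range n,
      ‖(h2 (2 * (m * q + i) * w + o) (b + 1) - h2 (2 * (m * q + i) * w + o) b) -
        (g2 (2 * (m * q + i) * w + o) (b + 1) - g2 (2 * (m * q + i) * w + o) b)‖ ≤
      ((N : ℝ) * w * n) * (√ε3 + √(2 * m * ε2)) := by
  have hR : 0 ≤ R := (norm_nonneg _).trans (hd1 0 0)
  have hm : 0 < m := lt_of_le_of_lt (Nat.zero_le _) hi
  have hn0 : 0 < n := by rw [hn]; positivity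
  have hnR : (n : ℝ) = 2 * m * N * w := by rw [hn]; push_cast; ring
  set S : Finset ((ℕ × ℕ) × ℕ) := (range N ×ˢ range w) ×ˢ range n with hS
  have hcard : (#S : ℝ) = (N : ℝ) * w * n := by
    rw [hS]; simp [Finset.card_product]
  set c : (ℕ × ℕ) × ℕ → ℕ := fun s => 2 * (m * s.1.1 + i) * w + s.1.2 with hc
  have hsum : ∀ f : ℕ → ℕ → ℝ, ∑ s ∈ S, f (c s) s.2 =
      ∑ q ∈ range N, ∑ o ∈ range w, ∑ b ∈ range n, f (2 * (m * q + i) * w + o) b := by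
    intro f
    rw [hS, Finset.sum_product, Finset.sum_product]
  have hsumE : ∀ f : ℕ → ℕ → E, ∑ s ∈ S, f (c s) s.2 =
      ∑ q ∈ range N, ∑ o ∈ range w, ∑ b ∈ range n, f (2 * (m * q + i) * w + o) b := by
    intro f
    rw [hS, Finset.sum_product, Finset.sum_product]
  have hrestr : ∀ (f : ℕ → ℕ → ℝ) (ε : ℝ), (∀ a b, 0 ≤ f a b) →
      ∑ a ∈ range n, ∑ b ∈ range n, f a b ≤ (n : ℝ) ^ 2 * ε →
      ∑ s ∈ S, f (c s) s.2 ≤ (#S : ℝ) * (2 * m * ε) := by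
    intro f ε hf h
    rw [hsum, hcard]
    have h1 := strips_le (f := fun a => ∑ b ∈ range n, f a b)
      (fun a => Finset.sum_nonneg fun b _ => hf a b) (m := m) (N := N) (w := w) hi
    rw [← hn] at h1
    refine h1.trans (h.trans (le_of_eq ?_))
    rw [sq]; nth_rewrite 1 [hnR]; ring
  have hmem : ∀ s ∈ S, s.1.1 < N ∧ s.1.2 < w ∧ s.2 < n := by
    intro s hs
    simp only [hS, Finset.mem_product, Finset.mem_range] at hs
    exact ⟨hs.1.1, hs.1.2, hs.2⟩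
  -- base on the region
  have hr1 := hrestr (fun a b => ‖(g1 (a + 1) b - g1 a b) - V1‖ ^ 2) κ1
    (fun a b => by positivity) hb1
  have hr2 := hrestr (fun a b => ‖(g2 a (b + 1) - g2 a b) - V2‖ ^ 2) ε2
    (fun a b => by positivity) hb2
  -- telescoping
  have ht1 : ‖∑ s ∈ S, ((h1 (c s + 1) s.2 - h1 (c s) s.2) - (g1 (c s + 1) s.2 - g1 (c s) s.2))‖ ≤
      (#S : ℝ) * (2 * R / w) := by
    rw [hsumE (fun a b => (h1 (a + 1) b - h1 a b) - (g1 (a + 1) b - g1 a b))]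
    have hq : ∀ q ∈ range N, ‖∑ o ∈ range w, ∑ b ∈ range n,
        ((h1 (2 * (m * q + i) * w + o + 1) b - h1 (2 * (m * q + i) * w + o) b) -
          (g1 (2 * (m * q + i) * w + o + 1) b - g1 (2 * (m * q + i) * w + o) b))‖
        ≤ n * (2 * R) := by
      intro q _
      rw [Finset.sum_comm]
      refine (norm_sum_le _ _).trans ?_
      calc _ ≤ ∑ b ∈ range n, 2 * R := by
            refine Finset.sum_le_sum fun b _ => ?_
            refine le_trans (le_of_eq ?_) (norm_telescope_le (G := fun a => h1 a b - g1 a b)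
              (fun a => hd1 a b) (2 * (m * q + i) * w) w)
            congr 1
            exact Finset.sum_congr rfl fun o _ => by abel
        _ = n * (2 * R) := by rw [Finset.sum_const, nsmul_eq_mul, Finset.card_range]
    refine (norm_sum_le _ _).trans ((Finset.sum_le_sum hq).trans (le_of_eq ?_))
    rw [Finset.sum_const, nsmul_eq_mul, Finset.card_range, hcard]
    field_simp
  have ht2 : ‖∑ s ∈ S, ((h2 (c s) (s.2 + 1) - h2 (c s) s.2) - (g2 (c s) (s.2 + 1) - g2 (c s) s.2))‖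
      ≤ (#S : ℝ) * (2 * R / n) := by
    rw [hsumE (fun a b => (h2 a (b + 1) - h2 a b) - (g2 a (b + 1) - g2 a b))]
    refine (norm_sum_le _ _).trans ?_
    calc _ ≤ ∑ q ∈ range N, ∑ o ∈ range w, 2 * R := by
          refine Finset.sum_le_sum fun q _ => (norm_sum_le _ _).trans
            (Finset.sum_le_sum fun o _ => ?_)
          refine le_trans (le_of_eq ?_) (norm_telescope_le
            (G := fun b => h2 (2 * (m * q + i) * w + o) b - g2 (2 * (m * q + i) * w + o) b)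
            (fun b => hd2 _ b) 0 n)
          congr 1
          exact Finset.sum_congr rfl fun b _ => by rw [Nat.zero_add]; abel
      _ = (#S : ℝ) * (2 * R / n) := by
          simp only [Finset.sum_const, nsmul_eq_mul, Finset.card_range, hcard]
          field_simp
  have h1' : ‖∑ s ∈ S, ((h1 (c s + 1) s.2 - h1 (c s) s.2) - V1)‖ ≤ (#S : ℝ) * τ1 :=
    (rel_avg (by positivity) hr1 ht1).trans (mul_le_mul_of_nonneg_left hτ1 (by positivity))
  have h2' := (rel_avg (by positivity) hr2 ht2).trans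
    (mul_le_mul_of_nonneg_left hτ2 (by positivity))
  have h3 := second (S := S) hV1 hV2 hκ1 hκ2 hη h1'
    (fun s hs => by
      obtain ⟨ha, hb, hc'⟩ := hmem s hs
      exact hAV _ ha _ hb _ hc')
    h2' (fun s _ => hh2 _ _)
    (fun s hs h => by
      obtain ⟨ha, hb, hc'⟩ := hmem s hs
      exact hBV _ ha _ hb _ hc' h)
  have h4 : ∑ s ∈ S, ‖(h2 (c s) (s.2 + 1) - h2 (c s) s.2) - V2‖ ^ 2 ≤ (#S : ℝ) * ε3 :=
    h3.trans (mul_le_mul_of_nonneg_left hε3 (by positivity))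
  have hτ1' : 0 ≤ τ1 := le_trans (by positivity) hτ1
  have hτ2' : 0 ≤ τ2 := le_trans (by positivity) hτ2
  have h5 := rel_l1 (ε := 2 * m * ε2) (ε' := ε3) (by positivity)
    (le_trans (by positivity) hε3) hr2 h4
  rw [hsum (fun a b => ‖(h2 a (b + 1) - h2 a b) - (g2 a (b + 1) - g2 a b)‖), hcard] at h5
  exact h5

lemma regionH {D κ1 R τ0 : ℝ} {m G U n i : ℕ}
    (hi : i < m) (hG : 0 < G) (hU : 0 < U) (hn : n = 2 * m * G * U)
    (hκ1 : 0 ≤ κ1) (hD : 0 ≤ D) {g1 h1 : ℕ → ℕ → E} {V1 : E} (hV1 : ‖V1‖ ≤ D)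
    (hd1 : ∀ a b, ‖h1 a b - g1 a b‖ ≤ R)
    (hb1 : ∑ a ∈ range n, ∑ b ∈ range n, ‖(g1 (a + 1) b - g1 a b) - V1‖ ^ 2 ≤ (n : ℝ) ^ 2 * κ1)
    (hAH : ∀ a < n, ∀ g < G, ∀ o < U,
      ‖h1 (a + 1) (2 * (m * g + i) * U + o) - h1 a (2 * (m * g + i) * U + o)‖ ^ 2
        ≤ ‖V1‖ ^ 2 + κ1)
    (hτ0 : 2 * R / n + √(2 * m * κ1) ≤ τ0) :
    ∑ a ∈ range n, ∑ g ∈ range G, ∑ o ∈ range U,
      ‖(h1 (a + 1) (2 * (m * g + i) * U + o) - h1 a (2 * (m * g + i) * U + o)) -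
        (g1 (a + 1) (2 * (m * g + i) * U + o) - g1 a (2 * (m * g + i) * U + o))‖ ≤
      ((n : ℝ) * G * U) * (√(κ1 + 2 * D * τ0) + √(2 * m * κ1)) := by
  have hR : 0 ≤ R := (norm_nonneg _).trans (hd1 0 0)
  have hm : 0 < m := lt_of_le_of_lt (Nat.zero_le _) hi
  have hn0 : 0 < n := by rw [hn]; positivity
  have hnR : (n : ℝ) = 2 * m * G * U := by rw [hn]; push_cast; ring
  set S : Finset (ℕ × (ℕ × ℕ)) := range n ×ˢ (range G ×ˢ range U) with hS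
  have hcard : (#S : ℝ) = (n : ℝ) * G * U := by
    rw [hS]; simp [Finset.card_product]; ring
  set c : ℕ × (ℕ × ℕ) → ℕ := fun s => 2 * (m * s.2.1 + i) * U + s.2.2 with hc
  have hsum : ∀ f : ℕ → ℕ → ℝ, ∑ s ∈ S, f s.1 (c s) =
      ∑ a ∈ range n, ∑ g ∈ range G, ∑ o ∈ range U, f a (2 * (m * g + i) * U + o) := by
    intro f
    rw [hS, Finset.sum_product]
    exact Finset.sum_congr rfl fun a _ => by rw [Finset.sum_product]
  have hsumE : ∀ f : ℕ → ℕ → E, ∑ s ∈ S, f s.1 (c s) =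
      ∑ a ∈ range n, ∑ g ∈ range G, ∑ o ∈ range U, f a (2 * (m * g + i) * U + o) := by
    intro f
    rw [hS, Finset.sum_product]
    exact Finset.sum_congr rfl fun a _ => by rw [Finset.sum_product]
  have hrestr : ∀ (f : ℕ → ℕ → ℝ) (ε : ℝ), (∀ a b, 0 ≤ f a b) →
      ∑ a ∈ range n, ∑ b ∈ range n, f a b ≤ (n : ℝ) ^ 2 * ε →
      ∑ s ∈ S, f s.1 (c s) ≤ (#S : ℝ) * (2 * m * ε) := by
    intro f ε hf h
    rw [hsum, hcard]
    have h1 : ∑ a ∈ range n, ∑ g ∈ range G, ∑ o ∈ range U, f a (2 * (m * g + i) * U + o) ≤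
        ∑ a ∈ range n, ∑ b ∈ range n, f a b := by
      refine Finset.sum_le_sum fun a _ => ?_
      have := strips_le (f := fun b => f a b) (fun b => hf a b) (m := m) (N := G) (w := U) hi
      rwa [← hn] at this
    refine h1.trans (h.trans (le_of_eq ?_))
    rw [sq]; nth_rewrite 2 [hnR]; ring
  have hmem : ∀ s ∈ S, s.1 < n ∧ s.2.1 < G ∧ s.2.2 < U := by
    intro s hs
    simp only [hS, Finset.mem_product, Finset.mem_range] at hs
    exact ⟨hs.1, hs.2.1, hs.2.2⟩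
  have hr1 := hrestr (fun a b => ‖(g1 (a + 1) b - g1 a b) - V1‖ ^ 2) κ1
    (fun a b => by positivity) hb1
  have ht1 : ‖∑ s ∈ S, ((h1 (s.1 + 1) (c s) - h1 s.1 (c s)) - (g1 (s.1 + 1) (c s) - g1 s.1 (c s)))‖
      ≤ (#S : ℝ) * (2 * R / n) := by
    rw [hsumE (fun a b => (h1 (a + 1) b - h1 a b) - (g1 (a + 1) b - g1 a b)), Finset.sum_comm]
    have hq : ∀ g ∈ range G, ‖∑ a ∈ range n, ∑ o ∈ range U,
        ((h1 (a + 1) (2 * (m * g + i) * U + o) - h1 a (2 * (m * g + i) * U + o)) -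
          (g1 (a + 1) (2 * (m * g + i) * U + o) - g1 a (2 * (m * g + i) * U + o)))‖
        ≤ U * (2 * R) := by
      intro g _
      rw [Finset.sum_comm]
      refine (norm_sum_le _ _).trans ?_
      calc _ ≤ ∑ o ∈ range U, 2 * R := by
            refine Finset.sum_le_sum fun o _ => ?_
            refine le_trans (le_of_eq ?_) (norm_telescope_le
              (G := fun a => h1 a (2 * (m * g + i) * U + o) - g1 a (2 * (m * g + i) * U + o))
              (fun a => hd1 a _) 0 n)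
            congr 1
            exact Finset.sum_congr rfl fun b _ => by rw [Nat.zero_add]; abel
        _ = U * (2 * R) := by rw [Finset.sum_const, nsmul_eq_mul, Finset.card_range]
    refine (norm_sum_le _ _).trans ((Finset.sum_le_sum hq).trans (le_of_eq ?_))
    rw [Finset.sum_const, nsmul_eq_mul, Finset.card_range, hcard]
    field_simp
  have h1' := (rel_avg (by positivity) hr1 ht1).trans
    (mul_le_mul_of_nonneg_left hτ0 (by positivity))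
  have hτ0' : 0 ≤ τ0 := le_trans (by positivity) hτ0
  have h2 := var_le (κ := κ1) hV1 h1' (by
    calc _ ≤ ∑ s ∈ S, (‖V1‖ ^ 2 + κ1) := by
          refine Finset.sum_le_sum fun s hs => ?_
          obtain ⟨ha, hb, hc'⟩ := hmem s hs
          exact hAH _ ha _ hb _ hc'
      _ = (#S : ℝ) * (‖V1‖ ^ 2 + κ1) := by rw [Finset.sum_const, nsmul_eq_mul])
  have h5 := rel_l1 (ε := 2 * m * κ1) (ε' := κ1 + 2 * D * τ0) (by positivity)
    (by positivity) hr1 h2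
  rw [hsum (fun a b => ‖(h1 (a + 1) b - h1 a b) - (g1 (a + 1) b - g1 a b)‖), hcard] at h5
  exact h5

end regions

section discrete

variable {E : Type*} [NormedAddCommGroup E] [InnerProductSpace ℝ E]

omit [InnerProductSpace ℝ E] in
/-- drift of a function along a block is at most the sum of the norms of its increments -/
lemma norm_sub_le_sum {G : ℕ → E} {A w : ℕ} {x y : ℕ} (hx : A ≤ x) (hx' : x < A + w)
    (hy : A ≤ y) (hy' : y < A + w) :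
    ‖G x - G y‖ ≤ ∑ o ∈ range w, ‖G (A + o + 1) - G (A + o)‖ := by
  wlog h : y ≤ x generalizing x y
  · rw [norm_sub_rev]
    exact this hy hy' hx hx' (by omega)
  obtain ⟨y', rfl⟩ := Nat.exists_eq_add_of_le hy
  obtain ⟨d, rfl⟩ := Nat.exists_eq_add_of_le h
  have h1 : G (A + y' + d) - G (A + y') = ∑ o ∈ range d, (G (A + y' + o + 1) - G (A + y' + o)) := by
    have := Finset.sum_range_sub (fun o => G (A + y' + o)) d
    simp only [Nat.add_zero] at this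
    rw [← this]; rfl
  rw [h1]
  refine (norm_sum_le _ _).trans ?_
  have h2 : ∑ o ∈ range d, ‖G (A + y' + o + 1) - G (A + y' + o)‖ =
      ∑ o ∈ Finset.Ico y' (y' + d), ‖G (A + o + 1) - G (A + o)‖ := by
    rw [Finset.sum_Ico_eq_sum_range]
    simp only [Nat.add_sub_cancel_left]
    refine Finset.sum_congr rfl fun o _ => by rw [← add_assoc A y' o]
  rw [h2]
  refine Finset.sum_le_sum_of_subset_of_nonneg ?_ fun o _ _ => norm_nonneg _
  intro o ho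
  rw [Finset.mem_Ico] at ho
  rw [Finset.mem_range]; omega

/-- choice of an index with at most average value -/
lemma exists_le_avg {s : Finset ℕ} {f : ℕ → ℝ} {w : ℕ} {T : ℝ} (hw : 0 < w)
    (hs : s = range w) (h : (1 / (w : ℝ)) * ∑ o ∈ s, f o ≤ T) : ∃ o < w, f o ≤ T := by
  subst hs
  by_contra hcon
  push Not at hcon
  have h1 : ∑ o ∈ range w, T < ∑ o ∈ range w, f o :=
    Finset.sum_lt_sum_of_nonempty (Finset.nonempty_range_iff.2 hw.ne')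
      fun o ho => hcon o (Finset.mem_range.1 ho)
  rw [Finset.sum_const, nsmul_eq_mul, Finset.card_range] at h1
  have h2 : (0 : ℝ) < w := by exact_mod_cast hw
  have h3 : ∑ o ∈ range w, f o ≤ w * T := by
    calc ∑ o ∈ range w, f o = w * ((1 / (w : ℝ)) * ∑ o ∈ range w, f o) := by field_simp
      _ ≤ w * T := mul_le_mul_of_nonneg_left h h2.le
  linarith

theorem discrete {D κ1 κ2 η R ε2 ε3 τ0 τ1 τ2 τ3 τ4 T : ℝ} {m β N U n : ℕ}
    (hm : 0 < m) (hβ : 0 < β) (hN : 0 < N) (hU : 0 < U) (hn : n = 2 * m * β * N * U)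
    (hD : 0 ≤ D) (hκ1 : 0 ≤ κ1) (hκ2 : 0 ≤ κ2) (hη : 0 < η)
    {g1 g2 : ℕ → ℕ → E} {h1 h2 : ℕ → ℕ → ℕ → E} {V1 V2 : E}
    (hV1 : ‖V1‖ ≤ D) (hV2 : ‖V2‖ ≤ D)
    (hg2 : ∀ a b, ‖g2 a (b + 1) - g2 a b‖ ≤ D)
    (hh2 : ∀ i a b, ‖h2 i a (b + 1) - h2 i a b‖ ≤ D)
    (hd1 : ∀ i a b, ‖h1 i a b - g1 a b‖ ≤ R)
    (hd2 : ∀ i a b, ‖h2 i a b - g2 a b‖ ≤ R)
    (hs1 : ((n : ℝ) ^ 2) • V1 = ∑ a ∈ range n, ∑ b ∈ range n, (g1 (a + 1) b - g1 a b))
    (hs2 : ((n : ℝ) ^ 2) • V2 = ∑ a ∈ range n, ∑ b ∈ range n, (g2 a (b + 1) - g2 a b))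
    (hA : ∀ a < n, ∀ b < n, ‖g1 (a + 1) b - g1 a b‖ ^ 2 ≤ ‖V1‖ ^ 2 + κ1)
    (hAV : ∀ i < m, ∀ q < N, ∀ o < β * U, ∀ b < n,
      ‖h1 i (2 * (m * q + i) * (β * U) + o + 1) b - h1 i (2 * (m * q + i) * (β * U) + o) b‖ ^ 2
        ≤ ‖V1‖ ^ 2 + κ1)
    (hAH : ∀ i < m, ∀ a < n, ∀ g < β * N, ∀ o < U,
      ‖h1 i (a + 1) (2 * (m * g + i) * U + o) - h1 i a (2 * (m * g + i) * U + o)‖ ^ 2
        ≤ ‖V1‖ ^ 2 + κ1)
    (hB : ∀ a < n, ∀ b < n, ‖V1‖ ^ 2 - η ≤ ‖g1 (a + 1) b - g1 a b‖ ^ 2 →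
      ‖g2 a (b + 1) - g2 a b‖ ^ 2 ≤ ‖V2‖ ^ 2 + κ2)
    (hBV : ∀ i < m, ∀ q < N, ∀ o < β * U, ∀ b < n,
      ‖V1‖ ^ 2 - η ≤
        ‖h1 i (2 * (m * q + i) * (β * U) + o + 1) b - h1 i (2 * (m * q + i) * (β * U) + o) b‖ ^ 2 →
      ‖h2 i (2 * (m * q + i) * (β * U) + o) (b + 1) - h2 i (2 * (m * q + i) * (β * U) + o) b‖ ^ 2
        ≤ ‖V2‖ ^ 2 + κ2)
    (hε2 : κ2 + D ^ 2 * κ1 / η ≤ ε2)
    (hτ0 : 2 * R / n + √(2 * m * κ1) ≤ τ0)
    (hτ1 : 2 * R / (β * U) + √(2 * m * κ1) ≤ τ1)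
    (hτ2 : 2 * R / n + √(2 * m * ε2) ≤ τ2)
    (hε3 : κ2 + D ^ 2 * (κ1 + 2 * D * τ1) / η + 2 * D * τ2 ≤ ε3)
    (hτ3 : √ε3 + √(2 * m * ε2) ≤ τ3)
    (hτ4 : √(κ1 + 2 * D * τ0) + √(2 * m * κ1) ≤ τ4)
    (hT : 2 * m ^ 2 * U * (τ3 + β * τ4) ≤ T) :
    ∃ n0 < N, ∃ g0 < β * N, ∃ α γ : ℕ → ℕ,
      (∀ i < m, ∃ o < β * U, α i = 2 * (m * n0 + i) * (β * U) + o) ∧
      (∀ i < m, ∃ o < U, γ i = 2 * (m * g0 + i) * U + o) ∧
      ∀ i < m, ∀ j < m,
        ‖(h2 i (α i) (γ j) - g2 (α i) (γ j)) - (h2 i (α i) (γ i) - g2 (α i) (γ i))‖ ≤ T ∧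
        ‖(h1 j (α i) (γ j) - g1 (α i) (γ j)) - (h1 j (α j) (γ j) - g1 (α j) (γ j))‖ ≤ T := by
  have hR : 0 ≤ R := (norm_nonneg _).trans (hd1 0 0 0)
  have hn0 : 0 < n := by rw [hn]; positivity
  have hnR : (n : ℝ) = 2 * m * β * N * U := by rw [hn]; push_cast; ring
  have hw : 0 < β * U := by positivity
  have hG : 0 < β * N := by positivity
  have hε2' : 0 ≤ ε2 := le_trans (by positivity) hε2
  have hτ0' : 0 ≤ τ0 := le_trans (by positivity) hτ0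
  have hτ1' : 0 ≤ τ1 := le_trans (by positivity) hτ1
  have hτ2' : 0 ≤ τ2 := le_trans (by positivity) hτ2
  have hε3' : 0 ≤ ε3 := le_trans (by positivity) hε3
  -- base square
  set S : Finset (ℕ × ℕ) := range n ×ˢ range n with hS
  have hcard : (#S : ℝ) = (n : ℝ) ^ 2 := by
    rw [hS]; simp [Finset.card_product]; ring
  have hmem : ∀ s ∈ S, s.1 < n ∧ s.2 < n := by
    intro s hs
    simpa only [hS, Finset.mem_product, Finset.mem_range] using hs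
  have hz1 : ∑ s ∈ S, ((g1 (s.1 + 1) s.2 - g1 s.1 s.2) - V1) = 0 := by
    rw [Finset.sum_sub_distrib, Finset.sum_const, ← Nat.cast_smul_eq_nsmul ℝ, hcard, hs1, hS,
      Finset.sum_product, sub_self]
  have hz2 : ∑ s ∈ S, ((g2 s.1 (s.2 + 1) - g2 s.1 s.2) - V2) = 0 := by
    rw [Finset.sum_sub_distrib, Finset.sum_const, ← Nat.cast_smul_eq_nsmul ℝ, hcard, hs2, hS,
      Finset.sum_product, sub_self]
  have hb1 : ∑ a ∈ range n, ∑ b ∈ range n, ‖(g1 (a + 1) b - g1 a b) - V1‖ ^ 2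
      ≤ (n : ℝ) ^ 2 * κ1 := by
    have h := var_le (S := S) (w := fun s => g1 (s.1 + 1) s.2 - g1 s.1 s.2) (V := V1) (κ := κ1)
      (τ := 0) hV1 (by rw [hz1]; simp) (by
        calc _ ≤ ∑ s ∈ S, (‖V1‖ ^ 2 + κ1) :=
              Finset.sum_le_sum fun s hs => hA _ (hmem s hs).1 _ (hmem s hs).2
          _ = (#S : ℝ) * (‖V1‖ ^ 2 + κ1) := by rw [Finset.sum_const, nsmul_eq_mul])
    rw [hcard, hS, Finset.sum_product] at h
    simpa using h
  have hb2 : ∑ a ∈ range n, ∑ b ∈ range n, ‖(g2 a (b + 1) - g2 a b) - V2‖ ^ 2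
      ≤ (n : ℝ) ^ 2 * ε2 := by
    have h := second (S := S) (w1 := fun s => g1 (s.1 + 1) s.2 - g1 s.1 s.2)
      (w2 := fun s => g2 s.1 (s.2 + 1) - g2 s.1 s.2) (V1 := V1) (V2 := V2) (τ1 := 0) (τ2 := 0)
      hV1 hV2 hκ1 hκ2 hη (by rw [hz1]; simp)
      (fun s hs => hA _ (hmem s hs).1 _ (hmem s hs).2) (by rw [hz2]; simp)
      (fun s _ => hg2 _ _) (fun s hs h => hB _ (hmem s hs).1 _ (hmem s hs).2 h)
    rw [hcard, hS, Finset.sum_product] at h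
    refine h.trans (mul_le_mul_of_nonneg_left ?_ (by positivity))
    simpa using hε2
  -- the two region estimates
  have hV : ∀ i < m, ∑ q ∈ range N, ∑ o ∈ range (β * U), ∑ b ∈ range n,
      ‖(h2 i (2 * (m * q + i) * (β * U) + o) (b + 1) - h2 i (2 * (m * q + i) * (β * U) + o) b) -
        (g2 (2 * (m * q + i) * (β * U) + o) (b + 1) - g2 (2 * (m * q + i) * (β * U) + o) b)‖ ≤
      ((N : ℝ) * (β * U : ℕ) * n) * τ3 := by
    intro i hi
    refine (regionV (R := R) (ε2 := ε2) (ε3 := ε3) (τ1 := τ1) (τ2 := τ2) (n := n) hi hN hw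
      (by rw [hn]; ring) hκ1 hκ2 hη hε2' hD hV1 hV2 (hh2 i) (hd1 i) (hd2 i) hb1 hb2
      (hAV i hi) (hBV i hi) (by push_cast; exact hτ1) hτ2 hε3).trans ?_
    exact mul_le_mul_of_nonneg_left hτ3 (by positivity)
  have hH : ∀ i < m, ∑ a ∈ range n, ∑ g ∈ range (β * N), ∑ o ∈ range U,
      ‖(h1 i (a + 1) (2 * (m * g + i) * U + o) - h1 i a (2 * (m * g + i) * U + o)) -
        (g1 (a + 1) (2 * (m * g + i) * U + o) - g1 a (2 * (m * g + i) * U + o))‖ ≤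
      ((n : ℝ) * (β * N : ℕ) * U) * τ4 := by
    intro i hi
    refine (regionH (R := R) (τ0 := τ0) (n := n) hi hG hU (by rw [hn]; ring) hκ1 hD hV1 (hd1 i)
      hb1 (hAH i hi) hτ0).trans ?_
    exact mul_le_mul_of_nonneg_left hτ4 (by positivity)
  -- the averaged functional
  set d2 : ℕ → ℕ → ℕ → ℝ := fun i a b =>
    ‖(h2 i a (b + 1) - h2 i a b) - (g2 a (b + 1) - g2 a b)‖ with hd2def
  set d1 : ℕ → ℕ → ℕ → ℝ := fun i a b =>
    ‖(h1 i (a + 1) b - h1 i a b) - (g1 (a + 1) b - g1 a b)‖ with hd1def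
  have hd2n : ∀ i a b, 0 ≤ d2 i a b := fun i a b => norm_nonneg _
  have hd1n : ∀ i a b, 0 ≤ d1 i a b := fun i a b => norm_nonneg _
  set Tf : ℕ → ℕ → ℝ := fun n0 g0 => ∑ i ∈ range m,
    ((1 / ((β * U : ℕ) : ℝ)) * ∑ o ∈ range (β * U), ∑ b ∈ range (2 * m * U),
        d2 i (2 * (m * n0 + i) * (β * U) + o) (g0 * (2 * m * U) + b) +
      (1 / (U : ℝ)) * ∑ o ∈ range U, ∑ a ∈ range (2 * m * (β * U)),
        d1 i (n0 * (2 * m * (β * U)) + a) (2 * (m * g0 + i) * U + o)) with hTf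
  have htot : ∑ n0 ∈ range N, ∑ g0 ∈ range (β * N), Tf n0 g0 ≤
      ∑ n0 ∈ range N, ∑ g0 ∈ range (β * N), T := by
    have h1 : ∑ n0 ∈ range N, ∑ g0 ∈ range (β * N), Tf n0 g0 = ∑ i ∈ range m,
        ((1 / ((β * U : ℕ) : ℝ)) * (∑ q ∈ range N, ∑ o ∈ range (β * U), ∑ b ∈ range n,
          d2 i (2 * (m * q + i) * (β * U) + o) b) +
        (1 / (U : ℝ)) * ∑ a ∈ range n, ∑ g ∈ range (β * N), ∑ o ∈ range U,
          d1 i a (2 * (m * g + i) * U + o)) := by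
      have e1 : ∀ f : ℕ → ℝ, ∑ b ∈ range n, f b =
          ∑ g0 ∈ range (β * N), ∑ b ∈ range (2 * m * U), f (g0 * (2 * m * U) + b) := by
        intro f
        have : n = (β * N) * (2 * m * U) := by rw [hn]; ring
        rw [this, sum_range_mul]
      have e2 : ∀ f : ℕ → ℝ, ∑ a ∈ range n, f a =
          ∑ n0 ∈ range N, ∑ a ∈ range (2 * m * (β * U)), f (n0 * (2 * m * (β * U)) + a) := by
        intro f
        have : n = N * (2 * m * (β * U)) := by rw [hn]; ring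
        rw [this, sum_range_mul]
      simp only [hTf]
      simp only [Finset.sum_comm (s := range (β * N)) (t := range m),
        Finset.sum_comm (s := range N) (t := range m)]
      refine Finset.sum_congr rfl fun i _ => ?_
      simp only [Finset.sum_add_distrib, ← Finset.mul_sum]
      congr 2
      · refine Finset.sum_congr rfl fun q _ => ?_
        rw [Finset.sum_comm]
        exact Finset.sum_congr rfl fun o _ => by rw [e1]
      · rw [e2]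
        refine Finset.sum_congr rfl fun q _ => ?_
        rw [Finset.sum_comm (s := range (2 * m * (β * U))) (t := range (β * N))]
        exact Finset.sum_congr rfl fun g _ => Finset.sum_comm
    rw [h1]
    calc _ ≤ ∑ i ∈ range m, ((1 / ((β * U : ℕ) : ℝ)) * (((N : ℝ) * (β * U : ℕ) * n) * τ3) +
        (1 / (U : ℝ)) * (((n : ℝ) * (β * N : ℕ) * U) * τ4)) := by
          refine Finset.sum_le_sum fun i hi => ?_
          have hi' := Finset.mem_range.1 hi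
          exact add_le_add (mul_le_mul_of_nonneg_left (hV i hi') (by positivity))
            (mul_le_mul_of_nonneg_left (hH i hi') (by positivity))
      _ = (N : ℝ) * (β * N) * (2 * m ^ 2 * U * (τ3 + β * τ4)) := by
          rw [Finset.sum_const, nsmul_eq_mul, Finset.card_range, hnR]
          push_cast
          field_simp
      _ ≤ (N : ℝ) * (β * N) * T := mul_le_mul_of_nonneg_left hT (by positivity)
      _ = _ := by simp [Finset.sum_const, nsmul_eq_mul]; ring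
  obtain ⟨n0, hn0', hle⟩ := Finset.exists_le_of_sum_le (Finset.nonempty_range_iff.2 hN.ne') htot
  obtain ⟨g0, hg0', hle⟩ := Finset.exists_le_of_sum_le (Finset.nonempty_range_iff.2 hG.ne') hle
  rw [Finset.mem_range] at hn0' hg0'
  refine ⟨n0, hn0', g0, hg0', ?_⟩
  have hterm : ∀ i < m,
      (1 / ((β * U : ℕ) : ℝ)) * (∑ o ∈ range (β * U), ∑ b ∈ range (2 * m * U),
        d2 i (2 * (m * n0 + i) * (β * U) + o) (g0 * (2 * m * U) + b)) ≤ T ∧
      (1 / (U : ℝ)) * (∑ o ∈ range U, ∑ a ∈ range (2 * m * (β * U)),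
        d1 i (n0 * (2 * m * (β * U)) + a) (2 * (m * g0 + i) * U + o)) ≤ T := by
    intro i hi
    have h1 := Finset.single_le_sum (f := fun i =>
      ((1 / ((β * U : ℕ) : ℝ)) * ∑ o ∈ range (β * U), ∑ b ∈ range (2 * m * U),
        d2 i (2 * (m * n0 + i) * (β * U) + o) (g0 * (2 * m * U) + b) +
      (1 / (U : ℝ)) * ∑ o ∈ range U, ∑ a ∈ range (2 * m * (β * U)),
        d1 i (n0 * (2 * m * (β * U)) + a) (2 * (m * g0 + i) * U + o)))
      (fun i _ => add_nonneg (mul_nonneg (by positivity)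
          (Finset.sum_nonneg fun _ _ => Finset.sum_nonneg fun _ _ => hd2n _ _ _))
        (mul_nonneg (by positivity)
          (Finset.sum_nonneg fun _ _ => Finset.sum_nonneg fun _ _ => hd1n _ _ _)))
      (Finset.mem_range.2 hi)
    have h2 := h1.trans hle
    have h3 : 0 ≤ (1 / ((β * U : ℕ) : ℝ)) * ∑ o ∈ range (β * U), ∑ b ∈ range (2 * m * U),
        d2 i (2 * (m * n0 + i) * (β * U) + o) (g0 * (2 * m * U) + b) :=
      mul_nonneg (by positivity)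
          (Finset.sum_nonneg fun _ _ => Finset.sum_nonneg fun _ _ => hd2n _ _ _)
    have h4 : 0 ≤ (1 / (U : ℝ)) * ∑ o ∈ range U, ∑ a ∈ range (2 * m * (β * U)),
        d1 i (n0 * (2 * m * (β * U)) + a) (2 * (m * g0 + i) * U + o) :=
      mul_nonneg (by positivity)
          (Finset.sum_nonneg fun _ _ => Finset.sum_nonneg fun _ _ => hd1n _ _ _)
    exact ⟨by linarith, by linarith⟩
  have hcol : ∀ i, ∃ o, i < m → o < β * U ∧ ∑ b ∈ range (2 * m * U),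
        d2 i (2 * (m * n0 + i) * (β * U) + o) (g0 * (2 * m * U) + b) ≤ T := by
    intro i
    by_cases hi : i < m
    · obtain ⟨o, ho, ho'⟩ := exists_le_avg hw rfl (hterm i hi).1
      exact ⟨o, fun _ => ⟨ho, ho'⟩⟩
    · exact ⟨0, fun h => absurd h hi⟩
  have hrow : ∀ i, ∃ o, i < m → o < U ∧ ∑ a ∈ range (2 * m * (β * U)),
        d1 i (n0 * (2 * m * (β * U)) + a) (2 * (m * g0 + i) * U + o) ≤ T := by
    intro i
    by_cases hi : i < m
    · obtain ⟨o, ho, ho'⟩ := exists_le_avg hU rfl (hterm i hi).2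
      exact ⟨o, fun _ => ⟨ho, ho'⟩⟩
    · exact ⟨0, fun h => absurd h hi⟩
  choose oc hoc using hcol
  choose or' hor using hrow
  refine ⟨fun i => 2 * (m * n0 + i) * (β * U) + oc i, fun i => 2 * (m * g0 + i) * U + or' i,
    fun i hi => ⟨oc i, (hoc i hi).1, rfl⟩, fun i hi => ⟨or' i, (hor i hi).1, rfl⟩, ?_⟩
  intro i hi j hj
  have hrange : ∀ (W x k o : ℕ), k < m → o < W → x * (2 * m * W) ≤ 2 * (m * x + k) * W + o ∧
      2 * (m * x + k) * W + o < x * (2 * m * W) + 2 * m * W := by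
    intro W x k o hk ho
    have e : 2 * (m * x + k) * W + o = x * (2 * m * W) + (2 * k * W + o) := by ring
    rw [e]
    refine ⟨by omega, ?_⟩
    have : 2 * k * W + o < 2 * m * W := by
      calc 2 * k * W + o < 2 * k * W + W := by omega
        _ = (2 * k + 1) * W := by ring
        _ ≤ 2 * m * W := Nat.mul_le_mul_right _ (by omega)
    omega
  constructor
  · refine (norm_sub_le_sum (G := fun b => h2 i (2 * (m * n0 + i) * (β * U) + oc i) b -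
      g2 (2 * (m * n0 + i) * (β * U) + oc i) b) (A := g0 * (2 * m * U)) (w := 2 * m * U)
      (hrange U g0 j _ hj (hor j hj).1).1 (hrange U g0 j _ hj (hor j hj).1).2
      (hrange U g0 i _ hi (hor i hi).1).1 (hrange U g0 i _ hi (hor i hi).1).2).trans ?_
    refine le_trans (le_of_eq ?_) (hoc i hi).2
    refine Finset.sum_congr rfl fun b _ => ?_
    simp only [hd2def]
    congr 1; abel
  · refine (norm_sub_le_sum (G := fun a => h1 j a (2 * (m * g0 + j) * U + or' j) -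
      g1 a (2 * (m * g0 + j) * U + or' j)) (A := n0 * (2 * m * (β * U))) (w := 2 * m * (β * U))
      (hrange (β * U) n0 i _ hi (hoc i hi).1).1 (hrange (β * U) n0 i _ hi (hoc i hi).1).2
      (hrange (β * U) n0 j _ hj (hoc j hj).1).1 (hrange (β * U) n0 j _ hj (hoc j hj).1).2).trans ?_
    refine le_trans (le_of_eq ?_) (hor j hj).2
    refine Finset.sum_congr rfl fun b _ => ?_
    simp only [hd1def]
    congr 1; abel

end discrete

end Crest.Agent.R254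
end

-- ▼ part R254/Params
section

set_option autoImplicit false

namespace Crest.Agent.R254

theorem params {D : ℝ} (hD : 1 ≤ D) {m : ℕ} (hm : 0 < m) :
    ∃ κ2 : ℝ, 0 < κ2 ∧ ∀ η : ℝ, 0 < η → ∃ (β N U0 : ℕ) (κ1 : ℝ),
      0 < β ∧ 200 ≤ N ∧ 0 < U0 ∧ 0 < κ1 ∧ ∀ (U n : ℕ) (R : ℝ), U0 ≤ U → n = 2 * m * β * N * U →
        R = 8 * D * U / 20000 →
        ∃ ε2 ε3 τ0 τ1 τ2 τ3 τ4 T : ℝ,
          κ2 + D ^ 2 * κ1 / η ≤ ε2 ∧
          2 * R / n + √(2 * m * κ1) ≤ τ0 ∧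
          2 * R / (β * U) + √(2 * m * κ1) ≤ τ1 ∧
          2 * R / n + √(2 * m * ε2) ≤ τ2 ∧
          κ2 + D ^ 2 * (κ1 + 2 * D * τ1) / η + 2 * D * τ2 ≤ ε3 ∧
          √ε3 + √(2 * m * ε2) ≤ τ3 ∧
          √(κ1 + 2 * D * τ0) + √(2 * m * κ1) ≤ τ4 ∧
          2 * (m : ℝ) ^ 2 * U * (τ3 + β * τ4) ≤ T ∧
          8 * D + 2 * T ≤ U / 20000 / (2 * D) := by
  have hD0 : 0 < D := by linarith
  have hmR : (1 : ℝ) ≤ m := by exact_mod_cast hm
  have hm0 : (0 : ℝ) < m := by linarith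
  obtain ⟨δ, hδdef⟩ : ∃ δ : ℝ, δ = 1 / 20000 / (64 * m ^ 2 * D) := ⟨_, rfl⟩
  have hδ : 0 < δ := by rw [hδdef]; positivity
  have hδ1 : δ ≤ 1 := by
    rw [hδdef, div_div, div_le_one (by positivity)]
    have h1 : (1 : ℝ) ≤ m ^ 2 * D :=
      one_le_mul_of_one_le_of_one_le (one_le_pow₀ hmR) hD
    linarith
  obtain ⟨δ2, hδ2def⟩ : ∃ δ2 : ℝ, δ2 = δ ^ 2 / (16 * D) := ⟨_, rfl⟩
  have hδ2 : 0 < δ2 := by rw [hδ2def]; positivity
  have hδ2δ : δ2 ≤ δ := by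
    rw [hδ2def, div_le_iff₀ (by positivity)]
    have h1 : δ ^ 2 ≤ δ := by rw [sq]; exact mul_le_of_le_one_left hδ.le hδ1
    have h2 : δ ≤ δ * D := le_mul_of_one_le_right hδ.le hD
    linarith
  have hδ2e : 16 * D * δ2 = δ ^ 2 := by rw [hδ2def]; field_simp
  refine ⟨δ2 ^ 2 / (4 * m), by positivity, fun η hη => ?_⟩
  set κ2 := δ2 ^ 2 / (4 * m) with hκ2def
  have hκ2 : 0 < κ2 := by positivity
  -- β
  obtain ⟨β, hβ⟩ := exists_nat_gt (max 1 (4 * (D ^ 2 * (2 * D * (16 * D / 20000))) / (η * δ ^ 2)))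
  have hβ1 : (1 : ℝ) < β := (le_max_left _ _).trans_lt hβ
  have hβ2 : 4 * (D ^ 2 * (2 * D * (16 * D / 20000))) / (η * δ ^ 2) < β :=
    (le_max_right _ _).trans_lt hβ
  have hβ0 : (0 : ℝ) < β := by linarith
  -- θ
  obtain ⟨θ, hθ, hθ1, hθ2, hθ3, hθ4, hθ5⟩ : ∃ θ : ℝ, 0 < θ ∧ θ ≤ 1 ∧
      θ ≤ κ2 * η / D ^ 2 ∧ θ ≤ δ ^ 2 * η / 4 / (3 * D ^ 3) ∧ θ ≤ δ / β ∧
      θ ≤ (δ / β) ^ 2 / 2 / (3 * D) :=
    ⟨min 1 (min (κ2 * η / D ^ 2) (min (δ ^ 2 * η / 4 / (3 * D ^ 3)) (min (δ / β)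
      ((δ / β) ^ 2 / 2 / (3 * D))))), by positivity, min_le_left _ _,
      (min_le_right _ _).trans (min_le_left _ _),
      (min_le_right _ _).trans ((min_le_right _ _).trans (min_le_left _ _)),
      (min_le_right _ _).trans ((min_le_right _ _).trans ((min_le_right _ _).trans
        (min_le_left _ _))),
      (min_le_right _ _).trans ((min_le_right _ _).trans ((min_le_right _ _).trans
        (min_le_right _ _)))⟩
  -- N
  obtain ⟨N, hN⟩ := exists_nat_gt (max 200 (max (8 * D / δ2) (8 * D * (2 * D) * 2 / (δ / β) ^ 2)))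
  have hN1 : (200 : ℝ) < N := (le_max_left _ _).trans_lt hN
  have hN2 : 8 * D / δ2 < N := ((le_max_left _ _).trans (le_max_right _ _)).trans_lt hN
  have hN3 : 8 * D * (2 * D) * 2 / (δ / β) ^ 2 < N :=
    ((le_max_right _ _).trans (le_max_right _ _)).trans_lt hN
  obtain ⟨U0, hU0⟩ := exists_nat_gt (32 * D ^ 2 * 20000)
  have hU0' : (0 : ℝ) < U0 := lt_trans (by positivity) hU0
  refine ⟨β, N, U0, θ ^ 2 / (2 * m), by exact_mod_cast hβ0, by exact_mod_cast hN1.le,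
    by exact_mod_cast hU0', by positivity, ?_⟩
  intro U n R hU hn hR
  have hUR : (U0 : ℝ) ≤ U := by exact_mod_cast hU
  have hUpos : (0 : ℝ) < U := by linarith
  have hN0 : (0 : ℝ) < N := by linarith
  have hnR : (n : ℝ) = 2 * m * β * N * U := by rw [hn]; push_cast; ring
  set κ1 := θ ^ 2 / (2 * m) with hκ1def
  have hκ1 : 0 < κ1 := by positivity
  have hsq : √(2 * m * κ1) = θ := by
    rw [hκ1def, mul_div_cancel₀ _ (by positivity : (2 * (m : ℝ)) ≠ 0), Real.sqrt_sq hθ.le]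
  have hκ1θ : κ1 ≤ θ := by
    rw [hκ1def, div_le_iff₀ (by positivity)]
    have h1 : θ ^ 2 ≤ θ := by rw [sq]; exact mul_le_of_le_one_left hθ.le hθ1
    have h2 : θ ≤ θ * m := le_mul_of_one_le_right hθ.le hmR
    linarith
  -- 2R/n
  have h2R : 2 * R / n ≤ 8 * D / N := by
    rw [hR, hnR, div_le_div_iff₀ (by positivity) hN0]
    have h1 : (1 : ℝ) ≤ m * β := one_le_mul_of_one_le_of_one_le hmR hβ1.le
    have h2 : 0 < D * N * U := by positivity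
    have h3 := mul_le_mul_of_nonneg_left h1 h2.le
    have h4 : 2 * (8 * D * (U : ℝ) / 20000) * N = 16 / 20000 * (D * N * U * 1) := by ring
    have h5 : 8 * D * (2 * (m : ℝ) * β * N * U) = 16 * (D * N * U * (m * β)) := by ring
    rw [h4, h5]
    linarith
  have h2R' : 2 * R / (β * U) = 16 * D / 20000 / β := by
    rw [hR]; field_simp; ring
  have hN2' : 8 * D / N ≤ δ2 := by
    rw [div_le_iff₀ hN0]; rw [div_lt_iff₀ hδ2] at hN2; linarith
  have hN3' : 2 * D * (8 * D / N) ≤ (δ / β) ^ 2 / 2 := by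
    have h3 : 0 < (δ / β) ^ 2 := by positivity
    rw [div_lt_iff₀ h3] at hN3
    rw [mul_div_assoc', div_le_iff₀ hN0]
    linarith
  have hθ2' : D ^ 2 * κ1 / η ≤ κ2 := by
    rw [le_div_iff₀ (by positivity)] at hθ2
    rw [div_le_iff₀ hη]
    have h1 := mul_le_mul_of_nonneg_left hκ1θ (by positivity : 0 ≤ D ^ 2)
    linarith
  have h3D : κ1 + 2 * D * θ ≤ 3 * D * θ := by
    have h1 : θ ≤ D * θ := le_mul_of_one_le_left hθ.le hD
    linarith
  refine ⟨2 * κ2, δ ^ 2, 8 * D / N + θ, 16 * D / 20000 / β + θ, δ2 + δ2, 2 * δ, 2 * (δ / β),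
    2 * (m : ℝ) ^ 2 * U * (4 * δ), ?_, ?_, ?_, ?_, ?_, ?_, ?_, ?_, ?_⟩
  · linarith
  · rw [hsq]; linarith
  · rw [hsq, h2R']
  · have h4 : √(2 * m * (2 * κ2)) = δ2 := by
      rw [hκ2def, show 2 * (m : ℝ) * (2 * (δ2 ^ 2 / (4 * m))) = δ2 ^ 2 by field_simp; ring,
        Real.sqrt_sq hδ2.le]
    rw [h4]; linarith
  · -- ε3
    have h5 : κ2 ≤ δ ^ 2 / 4 := by
      rw [hκ2def, div_le_div_iff₀ (by positivity) (by norm_num)]
      have h1 : δ2 ^ 2 ≤ δ ^ 2 := pow_le_pow_left₀ hδ2.le hδ2δ 2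
      have h2 : δ ^ 2 ≤ δ ^ 2 * m := le_mul_of_one_le_right (by positivity) hmR
      linarith
    have h6 : D ^ 2 * (κ1 + 2 * D * θ) / η ≤ δ ^ 2 / 4 := by
      rw [div_le_iff₀ hη]
      rw [le_div_iff₀ (by positivity)] at hθ3
      have h1 := mul_le_mul_of_nonneg_left h3D (by positivity : 0 ≤ D ^ 2)
      have h2 : D ^ 2 * (3 * D * θ) = θ * (3 * D ^ 3) := by ring
      linarith
    have h7 : D ^ 2 * (2 * D * (16 * D / 20000 / β)) / η ≤ δ ^ 2 / 4 := by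
      rw [div_lt_iff₀ (by positivity)] at hβ2
      rw [div_le_iff₀ hη, ← mul_div_assoc, ← mul_div_assoc, div_le_iff₀ hβ0]
      linarith
    have h8 : 2 * D * (δ2 + δ2) = δ ^ 2 / 4 := by linarith
    have h9 : D ^ 2 * (κ1 + 2 * D * (16 * D / 20000 / β + θ)) / η =
        D ^ 2 * (κ1 + 2 * D * θ) / η + D ^ 2 * (2 * D * (16 * D / 20000 / β)) / η := by
      ring
    rw [h9]; linarith
  · have h4 : √(2 * m * (2 * κ2)) = δ2 := by
      rw [hκ2def, show 2 * (m : ℝ) * (2 * (δ2 ^ 2 / (4 * m))) = δ2 ^ 2 by field_simp; ring,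
        Real.sqrt_sq hδ2.le]
    rw [h4, Real.sqrt_sq hδ.le]; linarith
  · rw [hsq]
    have h5 : √(κ1 + 2 * D * (8 * D / N + θ)) ≤ δ / β := by
      rw [Real.sqrt_le_left (by positivity)]
      rw [le_div_iff₀ (by positivity)] at hθ5
      have h1 : κ1 + 2 * D * (8 * D / N + θ) = (κ1 + 2 * D * θ) + 2 * D * (8 * D / N) := by ring
      have h2 : 3 * D * θ = θ * (3 * D) := by ring
      linarith
    linarith
  · have h5 : 2 * δ + β * (2 * (δ / β)) = 4 * δ := by field_simp; ring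
    rw [h5]
  · have h5 : 2 * (2 * (m : ℝ) ^ 2 * U * (4 * δ)) = U / 20000 / (4 * D) := by
      rw [hδdef]; field_simp; ring
    have h6 : 8 * D ≤ U / 20000 / (4 * D) := by
      rw [div_div, le_div_iff₀ (by positivity)]
      have h1 : 8 * D * (20000 * (4 * D)) = 32 * D ^ 2 * 20000 := by ring
      linarith
    have h7 : (U : ℝ) / 20000 / (2 * D) = U / 20000 / (4 * D) + U / 20000 / (4 * D) := by
      field_simp; ring
    rw [h5, h7]; linarith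

end Crest.Agent.R254
end

-- ▼ part R254/Step
section

/-!
# Row 254: one step of the iteration
-/

set_option autoImplicit false

open Set Finset Module

namespace Crest.Agent.R254

/-- the separation of the displacements contradicts the packing bound -/
theorem packing_contra {E : Type*} [NormedAddCommGroup E] [NormedSpace ℝ E] {m : ℕ} {c R : ℝ}
    (hR : 0 < R)
    (hpack : ∀ w : ℕ → E, (∀ i, i < m → ‖w i‖ ≤ 1) →
      ∃ i, i < m ∧ ∃ j, j < m ∧ i ≠ j ∧ ‖w i - w j‖ < c)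
    (W : ℕ → E) (h1 : ∀ i, i < m → ‖W i‖ ≤ R)
    (h2 : ∀ i, i < m → ∀ j, j < m → i ≠ j → c * R ≤ ‖W i - W j‖) : False := by
  obtain ⟨i, hi, j, hj, hij, h⟩ := hpack (fun i => R⁻¹ • W i) (fun i hi => by
    rw [norm_smul, norm_inv, Real.norm_of_nonneg hR.le, inv_mul_le_iff₀ hR]
    simpa using h1 i hi)
  have h3 := h2 i hi j hj hij
  rw [← smul_sub, norm_smul, norm_inv, Real.norm_of_nonneg hR.le, inv_mul_lt_iff₀ hR] at h
  linarith

section

variable {B : Type*} [NormedAddCommGroup B] [NormedSpace ℝ B] [CompleteSpace B]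
  {E : Type*} [NormedAddCommGroup E] [InnerProductSpace ℝ E] [FiniteDimensional ℝ E]

/-- the core of the step: neither alternative is impossible -/
theorem step_core (P : Par) (V : Vec B) {F : B → E} {D : ℝ} (hD : 1 ≤ D)
    (hF : ∀ x y, ‖F x - F y‖ ≤ D * ‖x - y‖)
    (hK : ∀ p ∈ K P V, ∀ q ∈ K P V, ‖p - q‖ ≤ D * ‖F p - F q‖)
    {k l U n : ℕ} {p : B} (hkl : k < l) (hU0 : 0 < U) (hU : P.n l = P.n (k + 1) * U)
    (hn : n = 2 * P.m k * P.β k * P.N k * U) (hp : Good P V k p)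
    {κ1 κ2 η ε2 ε3 τ0 τ1 τ2 τ3 τ4 T R : ℝ} (hR : R = 8 * D * U / 20000)
    (hκ1 : 0 ≤ κ1) (hκ2 : 0 ≤ κ2) (hη : 0 < η)
    (hpack : ∀ w : ℕ → E, (∀ i, i < P.m k → ‖w i‖ ≤ 1) →
      ∃ i, i < P.m k ∧ ∃ j, j < P.m k ∧ i ≠ j ∧ ‖w i - w j‖ < 1 / (16 * D ^ 2))
    (hε2 : κ2 + D ^ 2 * κ1 / η ≤ ε2)
    (hτ0 : 2 * R / n + √(2 * P.m k * κ1) ≤ τ0)
    (hτ1 : 2 * R / (P.β k * U) + √(2 * P.m k * κ1) ≤ τ1)
    (hτ2 : 2 * R / n + √(2 * P.m k * ε2) ≤ τ2)
    (hε3 : κ2 + D ^ 2 * (κ1 + 2 * D * τ1) / η + 2 * D * τ2 ≤ ε3)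
    (hτ3 : √ε3 + √(2 * P.m k * ε2) ≤ τ3)
    (hτ4 : √(κ1 + 2 * D * τ0) + √(2 * P.m k * κ1) ≤ τ4)
    (hT : 2 * (P.m k : ℝ) ^ 2 * U * (τ3 + P.β k * τ4) ≤ T)
    (hT' : 8 * D + 2 * T ≤ U / 20000 / (2 * D))
    (hnA : ∀ q, Good P V l q →
      ‖avg F V.e1 V.e2 q (P.s l)‖ ^ 2 ≤ ‖avg F V.e1 V.e2 p (P.s k)‖ ^ 2 + κ1)
    (hnB : ∀ q, Good P V l q →
      ‖avg F V.e1 V.e2 p (P.s k)‖ ^ 2 - η ≤ ‖avg F V.e1 V.e2 q (P.s l)‖ ^ 2 →
      ‖avg F V.e2 V.e1 q (P.s l)‖ ^ 2 ≤ ‖avg F V.e2 V.e1 p (P.s k)‖ ^ 2 + κ2) : False := by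
  have hD0 : 0 ≤ D := by linarith
  have hDpos : 0 < D := by linarith
  have hσ : 0 < P.s l := P.s_pos l
  have hσk : 0 < P.s k := P.s_pos k
  set σ := P.s l with hσdef
  have hmk := P.hm k
  have hβk := P.hβ k
  have hNk : 0 < P.N k := lt_of_lt_of_le (by norm_num) (P.hN k)
  have hMU : P.M k * U = n := by rw [hn]; rfl
  have hnl : P.n l = P.n k * n := by rw [hU, P.n_succ, ← hMU, mul_assoc]
  have hn0 : 0 < n := by rw [hn]; positivity
  have hsk : P.s k = (n : ℝ) * σ := P.s_eq_mul hnl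
  have hsk1 : P.s (k + 1) = (U : ℝ) * σ := P.s_eq_mul hU
  have hr : P.r k = U * σ / 20000 := by unfold Par.r; rw [hsk1]
  have hr0 : 0 < P.r k := P.r_pos k
  have hUR : (0 : ℝ) < U := by exact_mod_cast hU0
  have hRpos : 0 < R := by rw [hR]; positivity
  -- the grid functions
  set g1 : ℕ → ℕ → E := fun a b =>
    edge F V.e2 (p + ((a : ℝ) * σ) • V.e1 + ((b : ℝ) * σ) • V.e2) σ with hg1
  set g2 : ℕ → ℕ → E := fun a b =>
    edge F V.e1 (p + ((a : ℝ) * σ) • V.e1 + ((b : ℝ) * σ) • V.e2) σ with hg2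
  set h1 : ℕ → ℕ → ℕ → E := fun i a b =>
    edge F V.e2 (p + P.r k • V.W (i + 1) + ((a : ℝ) * σ) • V.e1 + ((b : ℝ) * σ) • V.e2) σ with hh1
  set h2 : ℕ → ℕ → ℕ → E := fun i a b =>
    edge F V.e1 (p + P.r k • V.W (i + 1) + ((a : ℝ) * σ) • V.e1 + ((b : ℝ) * σ) • V.e2) σ with hh2
  have e1 : ∀ (q : B) (a b : ℕ),
      edge F V.e2 (q + (((a + 1 : ℕ) : ℝ) * σ) • V.e1 + ((b : ℝ) * σ) • V.e2) σ -
        edge F V.e2 (q + ((a : ℝ) * σ) • V.e1 + ((b : ℝ) * σ) • V.e2) σ =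
      avg F V.e1 V.e2 (q + ((a : ℝ) * σ) • V.e1 + ((b : ℝ) * σ) • V.e2) σ := by
    intro q a b
    rw [avg_eq_edge]
    congr 2
    push_cast
    rw [add_mul, one_mul, add_smul]; abel
  have e2 : ∀ (q : B) (a b : ℕ),
      edge F V.e1 (q + ((a : ℝ) * σ) • V.e1 + (((b + 1 : ℕ) : ℝ) * σ) • V.e2) σ -
        edge F V.e1 (q + ((a : ℝ) * σ) • V.e1 + ((b : ℝ) * σ) • V.e2) σ =
      avg F V.e2 V.e1 (q + ((a : ℝ) * σ) • V.e1 + ((b : ℝ) * σ) • V.e2) σ := by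
    intro q a b
    rw [avg_eq_edge]
    congr 2
    push_cast
    rw [add_mul, one_mul, add_smul]; abel
  have hdisp : ∀ (e : B) (i a b : ℕ),
      ‖edge F e (p + P.r k • V.W (i + 1) + ((a : ℝ) * σ) • V.e1 + ((b : ℝ) * σ) • V.e2) σ -
        edge F e (p + ((a : ℝ) * σ) • V.e1 + ((b : ℝ) * σ) • V.e2) σ‖ ≤ R := by
    intro e i a b
    refine (norm_edge_sub_le hF e _ _ hσ).trans ?_
    have h3 : p + P.r k • V.W (i + 1) + ((a : ℝ) * σ) • V.e1 + ((b : ℝ) * σ) • V.e2 -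
        (p + ((a : ℝ) * σ) • V.e1 + ((b : ℝ) * σ) • V.e2) = P.r k • V.W (i + 1) := by abel
    rw [h3, norm_smul, Real.norm_of_nonneg hr0.le, hr, hR, div_le_iff₀ hσ]
    have h4 := V.hW (i + 1)
    calc D * (U * σ / 20000 * ‖V.W (i + 1)‖) ≤ D * (U * σ / 20000 * 8) := by gcongr
      _ = 8 * D * U / 20000 * σ := by ring
  have hdiff : ∀ q : B, ‖edge F V.e1 q σ - edge F V.e2 q σ‖ ≤ 2 * D := by
    intro q
    have h3 := norm_edge_sub_value_le hD0 hF V.he1 q hσ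
    have h4 := norm_edge_sub_value_le hD0 hF V.he2 q hσ
    calc ‖edge F V.e1 q σ - edge F V.e2 q σ‖
        = ‖(edge F V.e1 q σ - σ⁻¹ • F q) - (edge F V.e2 q σ - σ⁻¹ • F q)‖ := by congr 1; abel
      _ ≤ 2 * D := (norm_sub_le _ _).trans (by linarith)
  -- good cells
  have hbase : ∀ a < n, ∀ b < n, Good P V l (p + ((a : ℝ) * σ) • V.e1 + ((b : ℝ) * σ) • V.e2) :=
    fun a ha b hb => Good.sub P V hp hkl.le hnl ha hb
  have hlt : ∀ (w G x i o : ℕ), i < P.m k → x < G → o < w → 2 * P.m k * G * w = n →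
      2 * (P.m k * x + i) * w + o < n := by
    intro w G x i o hi hx ho hG
    calc 2 * (P.m k * x + i) * w + o < 2 * (P.m k * x + i) * w + w := by omega
      _ = (2 * (P.m k * x + i) + 1) * w := by ring
      _ ≤ (2 * (P.m k * G)) * w := by
          apply Nat.mul_le_mul_right
          have : P.m k * x + P.m k ≤ P.m k * G := by
            rw [← Nat.mul_succ]; exact Nat.mul_le_mul_left _ hx
          omega
      _ = n := by rw [← hG]; ring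
  have hVgood : ∀ i < P.m k, ∀ q < P.N k, ∀ o < P.β k * U, ∀ b < n,
      Good P V l (p + P.r k • V.W (i + 1) +
        (((2 * (P.m k * q + i) * (P.β k * U) + o : ℕ) : ℝ) * σ) • V.e1 +
        ((b : ℝ) * σ) • V.e2) := by
    intro i hi q hq o ho b hb
    exact Good.dispV P V hp hkl hU hi ho
      (by rw [hMU]; exact hlt _ (P.N k) _ _ _ hi hq ho (by rw [hn]; ring)) (by rw [hMU]; exact hb)
  have hHgood : ∀ i < P.m k, ∀ a < n, ∀ g < P.β k * P.N k, ∀ o < U,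
      Good P V l (p + P.r k • V.W (i + 1) + ((a : ℝ) * σ) • V.e1 +
        (((2 * (P.m k * g + i) * U + o : ℕ) : ℝ) * σ) • V.e2) := by
    intro i hi a ha g hg o ho
    exact Good.dispH P V hp hkl hU hi (by rw [hMU]; exact ha) ho
      (by rw [hMU]; exact hlt _ (P.β k * P.N k) _ _ _ hi hg ho (by rw [hn]; ring))
  -- apply the discrete lemma
  obtain ⟨n0, hn0', g0, hg0', α, γ, hα, hγ, hdrift⟩ := discrete (E := E) (n := n) (R := R)
    (ε2 := ε2) (ε3 := ε3) (τ0 := τ0) (τ1 := τ1) (τ2 := τ2) (τ3 := τ3) (τ4 := τ4) (T := T)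
    (κ1 := κ1) (κ2 := κ2) (η := η) (D := D)
    (g1 := g1) (g2 := g2) (h1 := h1) (h2 := h2)
    (V1 := avg F V.e1 V.e2 p (P.s k)) (V2 := avg F V.e2 V.e1 p (P.s k))
    hmk hβk hNk hU0 hn hD0 hκ1 hκ2 hη
    (norm_avg_le hD0 hF V.he1 p hσk) (norm_avg_le hD0 hF V.he2 p hσk)
    (fun a b => by simp only [hg2]; rw [e2]; exact norm_avg_le hD0 hF V.he2 _ hσ)
    (fun i a b => by simp only [hh2]; rw [e2]; exact norm_avg_le hD0 hF V.he2 _ hσ)
    (fun i a b => hdisp V.e2 i a b) (fun i a b => hdisp V.e1 i a b)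
    (by
      rw [hsk, avg_mul hF V.e1 V.e2 p hσ hn0]
      refine Finset.sum_congr rfl fun a _ => Finset.sum_congr rfl fun b _ => ?_
      simp only [hg1]; rw [e1])
    (by
      rw [hsk, avg_mul hF V.e2 V.e1 p hσ hn0, Finset.sum_comm]
      refine Finset.sum_congr rfl fun a _ => Finset.sum_congr rfl fun b _ => ?_
      simp only [hg2]; rw [e2]
      congr 1; abel)
    (fun a ha b hb => by simp only [hg1]; rw [e1]; exact hnA _ (hbase a ha b hb))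
    (fun i hi q hq o ho b hb => by
      simp only [hh1]; rw [e1]; exact hnA _ (hVgood i hi q hq o ho b hb))
    (fun i hi a ha g hg o ho => by
      simp only [hh1]; rw [e1]; exact hnA _ (hHgood i hi a ha g hg o ho))
    (fun a ha b hb => by
      simp only [hg1, hg2]; rw [e1, e2]; exact hnB _ (hbase a ha b hb))
    (fun i hi q hq o ho b hb => by
      simp only [hh1, hh2]; rw [e1, e2]; exact hnB _ (hVgood i hi q hq o ho b hb))
    hε2 hτ0 hτ1 hτ2 hε3 hτ3 hτ4 hT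
  -- the displacements at the selected corners
  refine packing_contra (E := E) (R := R) (c := 1 / (16 * D ^ 2)) (m := P.m k) hRpos hpack
    (fun i => h1 i (α i) (γ i) - g1 (α i) (γ i)) (fun i _ => hdisp V.e2 i _ _) ?_
  intro i hi j hj hij
  obtain ⟨oi, hoi, hαi⟩ := hα i hi
  obtain ⟨oj, hoj, hγj⟩ := hγ j hj
  have hαn : α i < n := by
    rw [hαi]; exact hlt _ (P.N k) _ _ _ hi hn0' hoi (by rw [hn]; ring)
  have hγn : γ j < n := by
    rw [hγj]; exact hlt _ (P.β k * P.N k) _ _ _ hj hg0' hoj (by rw [hn]; ring)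
  have hmem1 : p + P.r k • V.W (i + 1) + ((α i : ℝ) * σ) • V.e1 + ((γ j : ℝ) * σ) • V.e2
      ∈ K P V := by
    have := hVgood i hi n0 hn0' oi hoi (γ j) hγn
    rw [← hαi] at this
    exact Good.mem P V this
  have hmem2 : p + P.r k • V.W (j + 1) + ((α i : ℝ) * σ) • V.e1 + ((γ j : ℝ) * σ) • V.e2
      ∈ K P V := by
    have := hHgood j hj (α i) hαn g0 hg0' oj hoj
    rw [← hγj] at this
    exact Good.mem P V this
  have hcross := hK _ hmem1 _ hmem2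
  have hdist : P.r k ≤ ‖p + P.r k • V.W (i + 1) + ((α i : ℝ) * σ) • V.e1 + ((γ j : ℝ) * σ) • V.e2 -
      (p + P.r k • V.W (j + 1) + ((α i : ℝ) * σ) • V.e1 + ((γ j : ℝ) * σ) • V.e2)‖ := by
    have h3 : p + P.r k • V.W (i + 1) + ((α i : ℝ) * σ) • V.e1 + ((γ j : ℝ) * σ) • V.e2 -
        (p + P.r k • V.W (j + 1) + ((α i : ℝ) * σ) • V.e1 + ((γ j : ℝ) * σ) • V.e2) =
        P.r k • (V.W (i + 1) - V.W (j + 1)) := by
      rw [smul_sub]; abel
    have h4 := V.hsep (i + 1) (j + 1) (by omega) 0 0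
    rw [zero_smul, zero_smul, zero_add, zero_add] at h4
    rw [h3, norm_smul, Real.norm_of_nonneg hr0.le]
    nlinarith
  set Pi := p + P.r k • V.W (i + 1) + ((α i : ℝ) * σ) • V.e1 + ((γ j : ℝ) * σ) • V.e2 with hPi
  set Pj := p + P.r k • V.W (j + 1) + ((α i : ℝ) * σ) • V.e1 + ((γ j : ℝ) * σ) • V.e2 with hPj
  -- separation of edge values at the crossing
  have hFsep : (U : ℝ) / 20000 / D ≤ ‖σ⁻¹ • F Pi - σ⁻¹ • F Pj‖ := by
    rw [← smul_sub, norm_smul, norm_inv, Real.norm_of_nonneg hσ.le]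
    have h3 : U * σ / 20000 ≤ D * ‖F Pi - F Pj‖ := by rw [← hr]; exact hdist.trans hcross
    rw [div_le_iff₀ hDpos]
    calc (U : ℝ) / 20000 = σ⁻¹ * (U * σ / 20000) := by field_simp
      _ ≤ σ⁻¹ * (D * ‖F Pi - F Pj‖) := mul_le_mul_of_nonneg_left h3 (by positivity)
      _ = σ⁻¹ * ‖F Pi - F Pj‖ * D := by ring
  have hv1 := norm_edge_sub_value_le hD0 hF V.he1 Pi hσ
  have hv2 := norm_edge_sub_value_le hD0 hF V.he2 Pj hσ
  have hcr : (U : ℝ) / 20000 / D - 4 * D ≤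
      ‖(h2 i (α i) (γ j) - g2 (α i) (γ j)) - (h1 j (α i) (γ j) - g1 (α i) (γ j))‖ := by
    have h3 : σ⁻¹ • F Pi - σ⁻¹ • F Pj =
        ((h2 i (α i) (γ j) - g2 (α i) (γ j)) - (h1 j (α i) (γ j) - g1 (α i) (γ j))) +
        (g2 (α i) (γ j) - g1 (α i) (γ j)) - (edge F V.e1 Pi σ - σ⁻¹ • F Pi) +
        (edge F V.e2 Pj σ - σ⁻¹ • F Pj) := by
      simp only [hh1, hh2]
      abel
    have h4 : ‖g2 (α i) (γ j) - g1 (α i) (γ j)‖ ≤ 2 * D := hdiff _
    have h5 := norm_add_le (((h2 i (α i) (γ j) - g2 (α i) (γ j)) -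
        (h1 j (α i) (γ j) - g1 (α i) (γ j))) +
        (g2 (α i) (γ j) - g1 (α i) (γ j)) - (edge F V.e1 Pi σ - σ⁻¹ • F Pi))
        (edge F V.e2 Pj σ - σ⁻¹ • F Pj)
    have h6 := norm_sub_le (((h2 i (α i) (γ j) - g2 (α i) (γ j)) -
        (h1 j (α i) (γ j) - g1 (α i) (γ j))) +
        (g2 (α i) (γ j) - g1 (α i) (γ j))) (edge F V.e1 Pi σ - σ⁻¹ • F Pi)
    have h7 := norm_add_le ((h2 i (α i) (γ j) - g2 (α i) (γ j)) -
        (h1 j (α i) (γ j) - g1 (α i) (γ j))) (g2 (α i) (γ j) - g1 (α i) (γ j))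
    rw [← h3] at h5
    linarith
  have hlink : ‖(h2 i (α i) (γ i) - g2 (α i) (γ i)) - (h1 i (α i) (γ i) - g1 (α i) (γ i))‖
      ≤ 4 * D := by
    have h3 : (h2 i (α i) (γ i) - g2 (α i) (γ i)) - (h1 i (α i) (γ i) - g1 (α i) (γ i)) =
        (h2 i (α i) (γ i) - h1 i (α i) (γ i)) - (g2 (α i) (γ i) - g1 (α i) (γ i)) := by abel
    rw [h3]
    refine (norm_sub_le _ _).trans ?_
    have h4 : ‖h2 i (α i) (γ i) - h1 i (α i) (γ i)‖ ≤ 2 * D := hdiff _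
    have h5 : ‖g2 (α i) (γ i) - g1 (α i) (γ i)‖ ≤ 2 * D := hdiff _
    linarith
  obtain ⟨hd1, hd2⟩ := hdrift i hi j hj
  -- combine
  have hfin : (U : ℝ) / 20000 / D - 8 * D - 2 * T ≤
      ‖(h1 i (α i) (γ i) - g1 (α i) (γ i)) - (h1 j (α j) (γ j) - g1 (α j) (γ j))‖ := by
    set A1 := h2 i (α i) (γ j) - g2 (α i) (γ j)
    set A2 := h1 j (α i) (γ j) - g1 (α i) (γ j)
    set A3 := h2 i (α i) (γ i) - g2 (α i) (γ i)
    set A4 := h1 i (α i) (γ i) - g1 (α i) (γ i)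
    set A5 := h1 j (α j) (γ j) - g1 (α j) (γ j)
    have h3 : A1 - A2 = ((A1 - A3) + (A3 - A4) + (A4 - A5)) - (A2 - A5) := by abel
    have h4 := norm_sub_le ((A1 - A3) + (A3 - A4) + (A4 - A5)) (A2 - A5)
    have h5 := norm_add_le ((A1 - A3) + (A3 - A4)) (A4 - A5)
    have h6 := norm_add_le (A1 - A3) (A3 - A4)
    rw [← h3] at h4
    linarith
  refine le_trans ?_ hfin
  have h3 : 1 / (16 * D ^ 2) * R = U / 20000 / (2 * D) := by
    rw [hR]; field_simp; ring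
  have h4 : (U : ℝ) / 20000 / D = U / 20000 / (2 * D) + U / 20000 / (2 * D) := by
    field_simp; ring
  rw [h3]
  linarith

end

theorem one_step (E : Type*) [NormedAddCommGroup E] [InnerProductSpace ℝ E]
    [FiniteDimensional ℝ E] {D : ℝ} (hD : 1 ≤ D) :
    ∃ (m : ℕ) (κ2 : ℝ), 0 < m ∧ 0 < κ2 ∧ ∀ η : ℝ, 0 < η →
      ∃ (β N U0 : ℕ) (κ1 : ℝ), 0 < β ∧ 200 ≤ N ∧ 0 < κ1 ∧
        ∀ (B : Type*) [NormedAddCommGroup B] [NormedSpace ℝ B] [CompleteSpace B]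
          (P : Par) (V : Vec B) (F : B → E),
          (∀ x y, ‖F x - F y‖ ≤ D * ‖x - y‖) →
          (∀ p ∈ K P V, ∀ q ∈ K P V, ‖p - q‖ ≤ D * ‖F p - F q‖) →
          ∀ (k l : ℕ) (p : B), P.m k = m → P.β k = β → P.N k = N → k < l →
            U0 * P.n (k + 1) ≤ P.n l → Good P V k p →
            (∃ q, Good P V l q ∧
              ‖avg F V.e1 V.e2 p (P.s k)‖ ^ 2 + κ1 < ‖avg F V.e1 V.e2 q (P.s l)‖ ^ 2) ∨
            (∃ q, Good P V l q ∧
              ‖avg F V.e1 V.e2 p (P.s k)‖ ^ 2 - η ≤ ‖avg F V.e1 V.e2 q (P.s l)‖ ^ 2 ∧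
              ‖avg F V.e2 V.e1 p (P.s k)‖ ^ 2 + κ2 ≤ ‖avg F V.e2 V.e1 q (P.s l)‖ ^ 2) := by
  have hD0 : 0 < D := by linarith
  obtain ⟨m, hm, hpack⟩ := packing E (c := 1 / (16 * D ^ 2)) (by positivity)
  obtain ⟨κ2, hκ2, hpar⟩ := params hD hm
  refine ⟨m, κ2, hm, hκ2, fun η hη => ?_⟩
  obtain ⟨β, N, U0, κ1, hβ, hN, hU0, hκ1, hnum⟩ := hpar η hη
  refine ⟨β, N, U0, κ1, hβ, hN, hκ1, ?_⟩
  intro B _ _ _ P V F hF hK k l p hmk hβk hNk hkl hUl hp
  obtain ⟨U, hU⟩ := P.n_dvd (show k + 1 ≤ l from hkl)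
  have hnk := P.n_pos (k + 1)
  have hUU : U0 ≤ U := by
    rw [hU, mul_comm] at hUl
    exact Nat.le_of_mul_le_mul_left hUl hnk
  obtain ⟨ε2, ε3, τ0, τ1, τ2, τ3, τ4, T, hε2, hτ0, hτ1, hτ2, hε3, hτ3, hτ4, hT, hT'⟩ :=
    hnum U (2 * m * β * N * U) (8 * D * U / 20000) hUU rfl rfl
  by_contra hcon
  push Not at hcon
  obtain ⟨hA, hB⟩ := hcon
  subst hmk hβk hNk
  exact step_core P V hD hF hK hkl (lt_of_lt_of_le hU0 hUU) hU rfl hp rfl hκ1.le hκ2.le hη hpack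
    hε2 hτ0 hτ1 hτ2 hε3 hτ3 hτ4 hT hT' hA (fun q hq h => (hB q hq h).le)

end Crest.Agent.R254
end

-- ▼ part R254/Iterate

/-! Task I: iteration of the one-step lemma; the set `K` has no bi-Lipschitz image. -/

set_option autoImplicit false

open Set Finset Module

namespace Crest.Agent.R254

section iterate

variable {E : Type*} [NormedAddCommGroup E] [InnerProductSpace ℝ E] [FiniteDimensional ℝ E]
  {B : Type*} [NormedAddCommGroup B] [NormedSpace ℝ B] [CompleteSpace B]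

/-- Refinement: some subsquare of a deeper level has an at least as large average slope. -/
theorem exists_sub_ge (P : Par) (V : Vec B) {F : B → E} {D : ℝ}
    (hF : ∀ x y, ‖F x - F y‖ ≤ D * ‖x - y‖) {k l : ℕ} (hkl : k ≤ l) {p : B}
    (hp : Good P V k p) :
    ∃ q, Good P V l q ∧ ‖avg F V.e1 V.e2 p (P.s k)‖ ≤ ‖avg F V.e1 V.e2 q (P.s l)‖ := by
  obtain ⟨c, hc⟩ := P.n_dvd hkl
  have hcpos : 0 < c := by
    rcases Nat.eq_zero_or_pos c with h | h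
    · have := P.n_pos l
      rw [hc, h] at this
      simp at this
    · exact h
  have hs : P.s k = (c : ℝ) * P.s l := P.s_eq_mul hc
  have hmul := avg_mul hF V.e1 V.e2 p (P.s_pos l) hcpos
  rw [← hs] at hmul
  by_contra hcon
  push Not at hcon
  have hlt : ∀ a ∈ range c, ∀ b ∈ range c,
      ‖avg F V.e1 V.e2 (p + ((a : ℝ) * P.s l) • V.e1 + ((b : ℝ) * P.s l) • V.e2) (P.s l)‖ <
        ‖avg F V.e1 V.e2 p (P.s k)‖ := fun a ha b hb =>
    hcon _ (Good.sub P V hp hkl hc (Finset.mem_range.1 ha) (Finset.mem_range.1 hb))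
  have hne : (range c).Nonempty := ⟨0, Finset.mem_range.2 hcpos⟩
  have h1 : ((c : ℝ) ^ 2) * ‖avg F V.e1 V.e2 p (P.s k)‖ <
      ((c : ℝ) ^ 2) * ‖avg F V.e1 V.e2 p (P.s k)‖ := by
    calc ((c : ℝ) ^ 2) * ‖avg F V.e1 V.e2 p (P.s k)‖
        = ‖((c : ℝ) ^ 2) • avg F V.e1 V.e2 p (P.s k)‖ := by
          rw [norm_smul, Real.norm_of_nonneg (by positivity)]
      _ = ‖∑ a ∈ range c, ∑ b ∈ range c,
            avg F V.e1 V.e2 (p + ((a : ℝ) * P.s l) • V.e1 + ((b : ℝ) * P.s l) • V.e2) (P.s l)‖ := by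
          rw [hmul]
      _ ≤ ∑ a ∈ range c, ∑ b ∈ range c,
            ‖avg F V.e1 V.e2 (p + ((a : ℝ) * P.s l) • V.e1 + ((b : ℝ) * P.s l) • V.e2) (P.s l)‖ :=
          (norm_sum_le _ _).trans (Finset.sum_le_sum fun a _ => norm_sum_le _ _)
      _ < ∑ a ∈ range c, ∑ b ∈ range c, ‖avg F V.e1 V.e2 p (P.s k)‖ :=
          Finset.sum_lt_sum_of_nonempty hne fun a ha =>
            Finset.sum_lt_sum_of_nonempty hne fun b hb => hlt a ha b hb
      _ = ((c : ℝ) ^ 2) * ‖avg F V.e1 V.e2 p (P.s k)‖ := by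
          simp [Finset.sum_const, Finset.card_range]; ring
  exact lt_irrefl _ h1

end iterate

theorem no_embedding (E : Type*) [NormedAddCommGroup E] [InnerProductSpace ℝ E]
    [FiniteDimensional ℝ E] {D : ℝ} (hD : 1 ≤ D)
    (B : Type*) [NormedAddCommGroup B] [NormedSpace ℝ B] [CompleteSpace B]
    (P : Par) (hP : P.Rich) (V : Vec B) (F : B → E)
    (hF : ∀ x y, ‖F x - F y‖ ≤ D * ‖x - y‖)
    (hK : ∀ p ∈ K P V, ∀ q ∈ K P V, ‖p - q‖ ≤ D * ‖F p - F q‖) : False := by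
  obtain ⟨m, κ2, hm, hκ2, hstep⟩ := one_step E hD
  set a1 : ℕ → B → ℝ := fun k p => ‖avg F V.e1 V.e2 p (P.s k)‖ ^ 2 with ha1
  set a2 : ℕ → B → ℝ := fun k p => ‖avg F V.e2 V.e1 p (P.s k)‖ ^ 2 with ha2
  have hD0 : 0 ≤ D := by linarith
  have ha1D : ∀ k p, a1 k p ≤ D ^ 2 := fun k p =>
    pow_le_pow_left₀ (norm_nonneg _) (norm_avg_le hD0 hF V.he1 p (P.s_pos k)) 2
  have ha2D : ∀ k p, a2 k p ≤ D ^ 2 := fun k p =>
    pow_le_pow_left₀ (norm_nonneg _) (norm_avg_le hD0 hF V.he2 p (P.s_pos k)) 2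
  set S : Set ℝ := {x | ∃ k p, Good P V k p ∧ x = a1 k p} with hS
  have hSb : BddAbove S := ⟨D ^ 2, by
    rintro x ⟨k, p, -, rfl⟩
    exact ha1D k p⟩
  have hSne : S.Nonempty := ⟨a1 0 0, 0, 0, good_zero P V, rfl⟩
  have hle : ∀ k p, Good P V k p → a1 k p ≤ sSup S := fun k p h =>
    le_csSup hSb ⟨k, p, h, rfl⟩
  -- the iteration
  have key : ∀ L : ℕ, ∃ κ : ℝ, 0 < κ ∧ ∃ m' β' N' : ℕ, 0 < m' ∧ 0 < β' ∧ 200 ≤ N' ∧
      ∀ k p, P.m k = m' → P.β k = β' → P.N k = N' → Good P V k p → sSup S - κ ≤ a1 k p →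
        ∃ l q, Good P V l q ∧ a2 k p + L * κ2 ≤ a2 l q := by
    intro L
    induction L with
    | zero =>
      exact ⟨1, one_pos, 1, 1, 200, one_pos, one_pos, le_rfl,
        fun k p _ _ _ hp _ => ⟨k, p, hp, by simp⟩⟩
    | succ L ih =>
      obtain ⟨κ, hκ, m', β', N', hm', hβ', hN', hrec⟩ := ih
      obtain ⟨β, N, U0, κ1, hβ, hN, hκ1, hone⟩ := hstep (κ / 2) (half_pos hκ)
      refine ⟨min (κ / 2) (κ1 / 2), lt_min (half_pos hκ) (half_pos hκ1), m, β, N, hm, hβ, hN,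
        fun k p hmk hβk hNk hp hsup => ?_⟩
      obtain ⟨L0, hL0⟩ := P.exists_n_ge (k + 1) U0
      obtain ⟨l, hl, hml, hβl, hNl⟩ := hP m' β' N' (max L0 (k + 1)) hm' hβ' hN'
      have hkl : k < l := lt_of_lt_of_le (Nat.lt_succ_self k) ((le_max_right _ _).trans hl)
      have hUl : U0 * P.n (k + 1) ≤ P.n l := hL0 l ((le_max_left _ _).trans hl)
      rcases hone B P V F hF hK k l p hmk hβk hNk hkl hUl hp with ⟨q, hq, hlt⟩ | ⟨q, hq, h1, h2⟩
      · exfalso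
        have h3 := hle l q hq
        have h4 : min (κ / 2) (κ1 / 2) ≤ κ1 / 2 := min_le_right _ _
        have h5 : a1 k p + κ1 < a1 l q := hlt
        linarith
      · have h4 : min (κ / 2) (κ1 / 2) ≤ κ / 2 := min_le_left _ _
        have h1' : a1 k p - κ / 2 ≤ a1 l q := h1
        have h2' : a2 k p + κ2 ≤ a2 l q := h2
        obtain ⟨l', q', hq', h6⟩ := hrec l q hml hβl hNl hq (by linarith)
        refine ⟨l', q', hq', ?_⟩
        push_cast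
        linarith
  obtain ⟨L, hL⟩ := exists_nat_gt (D ^ 2 / κ2)
  obtain ⟨κ, hκ, m', β', N', hm', hβ', hN', hrec⟩ := key L
  obtain ⟨x, ⟨k0, p0, hp0, rfl⟩, hx⟩ := exists_lt_of_lt_csSup hSne
    (show sSup S - κ < sSup S by linarith)
  obtain ⟨l, hl, hml, hβl, hNl⟩ := hP m' β' N' k0 hm' hβ' hN'
  obtain ⟨q, hq, hge⟩ := exists_sub_ge P V hF hl hp0
  have hge' : a1 k0 p0 ≤ a1 l q := pow_le_pow_left₀ (norm_nonneg _) hge 2
  obtain ⟨l', q', hq', h6⟩ := hrec l q hml hβl hNl hq (by linarith)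
  have h7 := ha2D l' q'
  have h8 : 0 ≤ a2 l q := by positivity
  have h9 : D ^ 2 < L * κ2 := (div_lt_iff₀ hκ2).1 hL
  linarith

end Crest.Agent.R254
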